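import Vale.Agent.P363.Ext.Asymp.Spec
import Vale.Agent.P363.Ext.AsympLower
import Vale.Agent.P363.Ext.Heat.Node

/-!
P363, asymptotics of the profiles: the coefficient of degree eight has a limit, the lower ones are
negligible, and profiles following the heat average of their late data follow a multiple of the
polynomial of degree eight.
-/

noncomputable section

namespace Vale.Agent.P363.Ext.Asymp

open MeasureTheory Filter Set
open scoped BigOperators Topology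

/-- A function with small oscillation on dyadic intervals has a limit at zero, with a rate. -/
lemma dyadic_limit {β T₀ : ℝ} (hβ : 0 < β) (hT₀ : 0 < T₀) : ∃ L : ℝ, 0 ≤ L ∧
    ∀ (c : ℝ → ℝ) (C : ℝ), 0 ≤ C →
      (∀ T T' : ℝ, 0 < T → T ≤ T' → T' ≤ 2 * T → T' ≤ T₀ → |c T - c T'| ≤ C * T ^ β) →
      ∃ l : ℝ, Tendsto (fun n : ℕ => c (T₀ * (1 / 2) ^ n)) atTop (𝓝 l) ∧
        ∀ T : ℝ, 0 < T → T ≤ T₀ → |c T - l| ≤ L * C * T ^ β := by
  set q := (1 / 2 : ℝ) ^ β with hq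
  have hq0 : 0 < q := Real.rpow_pos_of_pos (by norm_num) _
  have hq1 : q < 1 := Real.rpow_lt_one (by norm_num) (by norm_num) hβ
  refine ⟨1 + 2 ^ β / (1 - q), by have := sub_pos.2 hq1; positivity, fun c C hC hc => ?_⟩
  set a : ℕ → ℝ := fun n => T₀ * (1 / 2) ^ n with ha
  have ha0 : ∀ n, 0 < a n := fun n => by positivity
  have haT : ∀ n, a n ≤ T₀ := fun n =>
    mul_le_of_le_one_right hT₀.le (pow_le_one₀ (by norm_num) (by norm_num))
  have hpow : ∀ n, a n ^ β = T₀ ^ β * q ^ n := fun n => by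
    simp only [ha, hq]
    rw [Real.mul_rpow hT₀.le (by positivity), ← Real.rpow_natCast, ← Real.rpow_mul (by norm_num),
      mul_comm (n : ℝ), Real.rpow_mul (by norm_num), Real.rpow_natCast]
  have hstep : ∀ n, dist (c (a n)) (c (a (n + 1))) ≤ C * T₀ ^ β * q ^ n := fun n => by
    have e : a n = 2 * a (n + 1) := by simp only [ha, pow_succ]; ring
    have h := hc (a (n + 1)) (a n) (ha0 _) (by linarith [ha0 (n + 1)]) e.le (haT n)
    rw [Real.dist_eq, abs_sub_comm]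
    refine h.trans ?_
    rw [mul_assoc, ← hpow]
    exact mul_le_mul_of_nonneg_left
      (Real.rpow_le_rpow (ha0 _).le (by linarith [ha0 (n + 1)]) hβ.le) hC
  have hcs := cauchySeq_of_le_geometric q _ hq1 hstep
  obtain ⟨l, hl⟩ := cauchySeq_tendsto_of_complete hcs
  refine ⟨l, hl, fun T hT hT0 => ?_⟩
  obtain ⟨n, hn1, hn2⟩ := exists_nat_pow_near_of_lt_one (div_pos hT hT₀)
    ((div_le_one hT₀).2 hT0) (show (0 : ℝ) < 1 / 2 by norm_num) (by norm_num)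
  have h1 : T ≤ a n := by
    have := (div_le_iff₀ hT₀).1 hn2
    simp only [ha]; linarith
  have h2 : a n ≤ 2 * T := by
    have := (lt_div_iff₀ hT₀).1 hn1
    simp only [ha, pow_succ] at this ⊢; linarith
  have h3 := dist_le_of_le_geometric_of_tendsto q _ hq1 hstep hl n
  rw [Real.dist_eq] at h3
  have h4 := hc T (a n) hT h1 h2 (haT n)
  calc |c T - l| ≤ |c T - c (a n)| + |c (a n) - l| := abs_sub_le _ _ _
    _ ≤ C * T ^ β + C * T₀ ^ β * q ^ n / (1 - q) := add_le_add h4 h3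
    _ ≤ C * T ^ β + C * (2 ^ β * T ^ β) / (1 - q) := by
        refine add_le_add le_rfl (div_le_div_of_nonneg_right ?_ (by linarith))
        rw [mul_assoc, ← hpow, ← Real.mul_rpow (by norm_num) hT.le]
        exact mul_le_mul_of_nonneg_left (Real.rpow_le_rpow (ha0 n).le h2 hβ.le) hC
    _ = _ := by ring

/-- The limit of the coefficient of degree eight and the size of the lower ones. -/
lemma coeff_limit (hD : DataBoundStmt) (hR : RateStmt) (S : Setup) (hκ : 0 < S.κ) :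
    ∃ δ₀ : ℝ, 0 < δ₀ ∧ ∀ δ : ℝ, 0 < δ → δ ≤ δ₀ → ∃ α C T₀ : ℝ, 0 < α ∧ 0 ≤ C ∧ 0 < T₀ ∧
      ∀ (ν : ℝ) (f : Space → ℝ), Profile S ν f → ∃ c : ℝ, ∀ T : ℝ, 0 < T → T ≤ T₀ →
        |coeff S f δ T 8 - c| ≤ C * T ^ α ∧
        ∀ m < 8, |coeff S f δ T m| ≤ C * T ^ α * (T ^ 4 / Real.sqrt T ^ m) := by
  obtain ⟨δd, A, Td, hδd, hTd, hdata⟩ := hD S
  obtain ⟨δr, hδr, hrate⟩ := hR S
  refine ⟨min δd δr, lt_min hδd hδr, fun δ hδ hδle => ?_⟩
  obtain ⟨α, C, Tr, hα, hTr, hrate⟩ := hrate δ hδ (hδle.trans (min_le_right _ _))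
  set T₀ := min Td Tr
  have hT₀ : 0 < T₀ := lt_min hTd hTr
  set β : ℕ → ℝ := fun m => α + (4 - m / 2) with hβ
  have hβ0 : ∀ m ≤ 8, 0 < β m := fun m hm => by
    have : (m : ℝ) ≤ 8 := by exact_mod_cast hm
    simp only [hβ]; linarith
  have hpow : ∀ (m : ℕ) (T : ℝ), 0 < T → T ^ β m = T ^ α * (T ^ 4 / Real.sqrt T ^ m) := by
    intro m T hT
    simp only [hβ]
    rw [Real.rpow_add hT, Real.rpow_sub hT, Real.sqrt_eq_rpow, ← Real.rpow_natCast (T ^ _) m,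
      ← Real.rpow_mul hT.le, ← Real.rpow_natCast T 4]
    congr 3
    ring
  choose! L hL hlim using fun m (hm : m ≤ 8) => dyadic_limit (hβ0 m hm) hT₀
  set Lm := ∑ m ∈ Finset.range 9, |L m|
  refine ⟨α, Lm * |C|, T₀, hα, by positivity, hT₀, fun ν f hf => ?_⟩
  have hLm : ∀ m ≤ 8, L m * |C| ≤ Lm * |C| := fun m hm => mul_le_mul_of_nonneg_right
    ((le_abs_self _).trans (Finset.single_le_sum (f := fun m => |L m|) (fun _ _ => abs_nonneg _)
      (Finset.mem_range.2 (Nat.lt_succ_of_le hm)))) (abs_nonneg C)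
  have key : ∀ m ≤ 8, ∃ l : ℝ,
      Tendsto (fun n : ℕ => coeff S f δ (T₀ * (1 / 2) ^ n) m) atTop (𝓝 l) ∧
        ∀ T : ℝ, 0 < T → T ≤ T₀ → |coeff S f δ T m - l| ≤ Lm * |C| * T ^ β m := fun m hm => by
    obtain ⟨l, h1, h2⟩ := hlim m hm (fun T => coeff S f δ T m) |C| (abs_nonneg C)
      fun T T' hT h1 h2 h3 => by
        refine (hrate ν f hf T T' hT h1 h2 (h3.trans (min_le_right _ _)) m (by omega)).trans ?_
        rw [hpow m T hT, ← mul_assoc]
        exact mul_le_mul_of_nonneg_right (mul_le_mul_of_nonneg_right (le_abs_self C)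
          (Real.rpow_nonneg hT.le _)) (by positivity)
    exact ⟨l, h1, fun T hT hT0 => (h2 T hT hT0).trans
      (mul_le_mul_of_nonneg_right (hLm m hm) (Real.rpow_nonneg hT.le _))⟩
  obtain ⟨c, -, hc⟩ := key 8 le_rfl
  refine ⟨c, fun T hT hT0 => ⟨?_, fun m hm => ?_⟩⟩
  · refine (hc T hT hT0).trans (le_of_eq ?_)
    simp [hβ]
    norm_num
  obtain ⟨l, hl, hlT⟩ := key m hm.le
  obtain ⟨Cm, hCm⟩ := Heat.avg S.κ hκ 10 m
  have hl0 : l = 0 := by
    refine tendsto_nhds_unique hl ?_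
    have hγ : 0 < (4 : ℝ) - m / 2 := by
      have : (m : ℝ) < 8 := by exact_mod_cast hm
      linarith
    have ht : Tendsto (fun n : ℕ => Cm * A * (T₀ * (1 / 2 : ℝ) ^ n) ^ ((4 : ℝ) - m / 2)) atTop
        (𝓝 0) := by
      have h1 : Tendsto (fun n : ℕ => T₀ * (1 / 2 : ℝ) ^ n) atTop (𝓝 0) := by
        simpa using (tendsto_pow_atTop_nhds_zero_of_lt_one (show (0 : ℝ) ≤ 1 / 2 by norm_num)
          (by norm_num)).const_mul T₀
      have h2 := ((Real.continuousAt_rpow_const 0 ((4 : ℝ) - m / 2) (Or.inr hγ.le)).tendsto.comp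
        h1).const_mul (Cm * A)
      simpa [Real.zero_rpow hγ.ne', Function.comp_def] using h2
    refine squeeze_zero_norm (fun n => ?_) ht
    have hT' : 0 < T₀ * (1 / 2 : ℝ) ^ n := by positivity
    have hle : T₀ * (1 / 2 : ℝ) ^ n ≤ T₀ :=
      mul_le_of_le_one_right hT₀.le (pow_le_one₀ (by norm_num) (by norm_num))
    obtain ⟨hld, -⟩ := hdata δ hδ (hδle.trans (min_le_left _ _)) ν f hf _ hT'
      (hle.trans (min_le_left _ _))
    have h := (hCm _ _ _ hld 0 0 le_rfl (by positivity) (by simp [Real.sqrt_nonneg])).2.2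
    refine h.trans (le_of_eq ?_)
    rw [Real.rpow_sub hT', Real.sqrt_eq_rpow, ← Real.rpow_natCast (_ ^ _) m,
      ← Real.rpow_mul hT'.le, ← Real.rpow_natCast _ 4]
    norm_num
    ring_nf
  rw [mul_assoc, ← hpow m T hT]
  simpa [hl0] using hlT T hT hT0

/-- Profiles follow a multiple of the polynomial of degree eight in the core. -/
lemma core_approx (hD : DataBoundStmt) (hR : RateStmt) (hF : FollowStmt) (S : Setup) (ε Sw : ℝ)
    (hε : 0 < ε) (hSw : 0 < Sw) : ∃ τ₀ : ℝ, 0 < τ₀ ∧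
      ∀ (ν : ℝ) (f : Space → ℝ), Profile S ν f → ∃ γ : ℝ, ∀ τ θ : ℝ, 0 < τ → τ ≤ τ₀ →
        |θ| ≤ Sw * Real.sqrt τ →
          |Growth.tred S f τ θ - γ * Caloric.poly8 S.κ (τ, θ)| ≤ ε * τ ^ 4 := by
  have hκ : 0 < S.κ := by
    have := S.data.a_pos
    unfold Setup.κ
    positivity
  obtain ⟨δd, A, Td, hδd, hTd, hdata⟩ := hD S
  obtain ⟨δc, hδc, hcoeff⟩ := coeff_limit hD hR S hκ
  obtain ⟨Ct, hCt⟩ := Heat.taylor S.κ hκ 10
  obtain ⟨D, hD0, hhq⟩ := Heat.exists_hq_bound hκ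
  set w := Sw + 1
  set N := max (10 * w ^ 2) (3 * (|Ct| * |A| * w ^ 10) / ε) with hN
  have hw1 : 1 ≤ w ^ 2 := one_le_pow₀ (by simp [w, hSw.le])
  have hN10 : 10 * w ^ 2 ≤ N := le_max_left _ _
  obtain ⟨δ₁, hδ₁, hfollow⟩ := hF S (ε / 3) N Sw (by linarith) (by linarith) hSw (by linarith)
  set δ := min δ₁ (min δd δc)
  have hδ : 0 < δ := lt_min hδ₁ (lt_min hδd hδc)
  obtain ⟨τ₁, hτ₁, hfol⟩ := hfollow δ hδ (min_le_left _ _)
  obtain ⟨α, C, Tc, hα, hC, hTc, hco⟩ := hcoeff δ hδ ((min_le_right _ _).trans (min_le_right _ _))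
  have hN0 : 0 < N := by linarith
  set E := ∑ i ∈ Finset.range 9, C * N ^ α * (N ^ 4 / Real.sqrt N ^ i) * (D * w ^ i) with hE
  have hE0 : 0 ≤ E := by positivity
  -- the threshold
  obtain ⟨τ₂, hτ₂, hsmall⟩ : ∃ τ₂ : ℝ, 0 < τ₂ ∧ ∀ τ, 0 < τ → τ ≤ τ₂ → E * τ ^ α ≤ ε / 3 := by
    refine ⟨((ε / 3) / (E + 1)) ^ α⁻¹, Real.rpow_pos_of_pos (by positivity) _, fun τ hτ hle => ?_⟩
    have h := Real.rpow_le_rpow hτ.le hle hα.le
    rw [← Real.rpow_mul (by positivity), inv_mul_cancel₀ hα.ne', Real.rpow_one,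
      le_div_iff₀ (by positivity)] at h
    nlinarith [Real.rpow_nonneg hτ.le α]
  refine ⟨min (min τ₁ τ₂) (min Td Tc / N),
    lt_min (lt_min hτ₁ hτ₂) (div_pos (lt_min hTd hTc) hN0), fun ν f hf => ?_⟩
  obtain ⟨c, hc⟩ := hco ν f hf
  refine ⟨c * (S.κ ^ 4 / 24), fun τ θ hτ hτ0 hθ => ?_⟩
  set T := N * τ with hT
  have hT0 : 0 < T := mul_pos hN0 hτ
  have hTle : T ≤ min Td Tc := by
    rw [hT, mul_comm, ← le_div_iff₀ hN0]; exact hτ0.trans (min_le_right _ _)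
  have h1 := hfol ν f hf τ θ hτ ((hτ0.trans (min_le_left _ _)).trans (min_le_left _ _)) hθ
  rw [← hT] at h1
  obtain ⟨hld, heven⟩ := hdata δ hδ ((min_le_right _ _).trans (min_le_left _ _)) ν f hf T hT0
    (hTle.trans (min_le_left _ _))
  obtain ⟨hc8, hclow⟩ := hc T hT0 (hTle.trans (min_le_right _ _))
  set g := Growth.late S f δ T
  set ρ := w * Real.sqrt τ with hρ
  have hsτ := Real.sqrt_pos.2 hτ
  have hρ0 : 0 < ρ := mul_pos (by simp [w]; linarith) hsτ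
  have hρsq : ρ ^ 2 = w ^ 2 * τ := by rw [hρ, mul_pow, Real.sq_sqrt hτ.le]
  have hτρ : τ ≤ 5 * ρ ^ 2 := by rw [hρsq]; nlinarith
  have hθρ : |θ| ≤ ρ := hθ.trans (mul_le_mul_of_nonneg_right (by simp [w]) hsτ.le)
  have h2 := hCt g T (A * T ^ 4) ρ hld hρ0 (by rw [hρsq, hT]; nlinarith) τ θ hτ.le hτρ hθρ 0
    (by norm_num)
  rw [Heat.avgTaylor_eq, pow_zero, div_one] at h2
  -- the remainder of the expansion
  have hrem : Ct * (A * T ^ 4) * (ρ ^ 2 / T) ^ 5 ≤ ε / 3 * τ ^ 4 := by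
    have e : Ct * (A * T ^ 4) * (ρ ^ 2 / T) ^ 5 = Ct * A * w ^ 10 / N * τ ^ 4 := by
      rw [hρsq, hT]; field_simp
    rw [e]
    refine mul_le_mul_of_nonneg_right ?_ (by positivity)
    rw [div_le_iff₀ hN0]
    have h := (div_le_iff₀ hε).1 (le_max_right (10 * w ^ 2) (3 * (|Ct| * |A| * w ^ 10) / ε))
    rw [← hN] at h
    have : Ct * A * w ^ 10 ≤ |Ct| * |A| * w ^ 10 :=
      mul_le_mul_of_nonneg_right ((le_abs_self _).trans (abs_mul _ _).le) (by positivity)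
    nlinarith
  -- the polynomial
  have hpoly : |Heat.avgTaylor S.κ g 0 τ θ - c * (S.κ ^ 4 / 24) * Caloric.poly8 S.κ (τ, θ)| ≤
      ε / 3 * τ ^ 4 := by
    have h9 : Heat.heatAvg S.κ g 9 0 0 = 0 := Heat.heatAvg_odd_zero heven (by decide) 0
    have e8 : Heat.hq S.κ 8 τ θ = S.κ ^ 4 / 24 * Caloric.poly8 S.κ (τ, θ) := by
      simp [Heat.hq, Caloric.heatPoly, Caloric.poly8, Finset.sum_range_succ, Nat.factorial]
      field_simp
      ring
    have e : Heat.avgTaylor S.κ g 0 τ θ - c * (S.κ ^ 4 / 24) * Caloric.poly8 S.κ (τ, θ) =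
        ∑ i ∈ Finset.range 9, (coeff S f δ T i - if i = 8 then c else 0) * Heat.hq S.κ i τ θ := by
      rw [mul_assoc, ← e8]
      simp only [Heat.avgTaylor, Nat.sub_zero, zero_add, Finset.sum_range_succ, Finset.sum_range_zero,
        h9, coeff, g]
      norm_num
      ring
    rw [e]
    refine (Finset.abs_sum_le_sum_abs _ _).trans ?_
    have hterm : ∀ i ∈ Finset.range 9,
        |(coeff S f δ T i - if i = 8 then c else 0) * Heat.hq S.κ i τ θ| ≤
          C * N ^ α * (N ^ 4 / Real.sqrt N ^ i) * (D * w ^ i) * (τ ^ α * τ ^ 4) := by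
      intro i hi
      have hi' := Finset.mem_range.1 hi
      have hci : |coeff S f δ T i - if i = 8 then c else 0| ≤
          C * T ^ α * (T ^ 4 / Real.sqrt T ^ i) := by
        split_ifs with h8
        · subst h8
          rw [show Real.sqrt T ^ 8 = T ^ 4 by
            rw [show 8 = 2 * 4 from rfl, pow_mul, Real.sq_sqrt hT0.le],
            div_self (by positivity), mul_one]
          exact hc8
        · rw [sub_zero]; exact hclow i (by omega)
      rw [abs_mul]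
      refine (mul_le_mul hci (hhq i (by omega) τ θ ρ hτ.le hτρ hθρ) (abs_nonneg _)
        (by positivity)).trans (le_of_eq ?_)
      rw [hρ, hT, Real.mul_rpow hN0.le hτ.le, Real.sqrt_mul hN0.le, mul_pow, mul_pow, mul_pow]
      field_simp
    refine (Finset.sum_le_sum hterm).trans ?_
    rw [← Finset.sum_mul, ← hE, ← mul_assoc]
    exact mul_le_mul_of_nonneg_right
      (hsmall τ hτ ((hτ0.trans (min_le_left _ _)).trans (min_le_right _ _))) (by positivity)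
  have := abs_sub_le (Growth.tred S f τ θ) (Heat.heatAvg S.κ g 0 τ θ)
    (c * (S.κ ^ 4 / 24) * Caloric.poly8 S.κ (τ, θ))
  have := abs_sub_le (Heat.heatAvg S.κ g 0 τ θ) (Heat.avgTaylor S.κ g 0 τ θ)
    (c * (S.κ ^ 4 / 24) * Caloric.poly8 S.κ (τ, θ))
  linarith

/-- Profiles converge along the parabolas, uniformly on the plane. -/
theorem profileAsymp_of (hD : DataBoundStmt) (hR : RateStmt) (hF : FollowStmt) :
    ProfileAsympStmt := by
  intro S ε hε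
  have hκ : 0 < S.κ := by
    have := S.data.a_pos
    unfold Setup.κ
    positivity
  -- the statement at one radius
  have hval : ∀ (f : Space → ℝ) (γ e Sw s r : ℝ) (τ₀ : ℝ), 0 < r → 0 ≤ s → s ≤ Sw → r⁻¹ ≤ τ₀ →
      (∀ τ θ : ℝ, 0 < τ → τ ≤ τ₀ → |θ| ≤ Sw * Real.sqrt τ →
        |Growth.tred S f τ θ - γ * Caloric.poly8 S.κ (τ, θ)| ≤ e * τ ^ 4) →
      |r ^ 4 * red S.a S.k f r (s / Real.sqrt r) - γ * Caloric.profile8 (s ^ 2 / S.κ)| ≤ e := by
    intro f γ e Sw s r τ₀ hr hs hsw hr0 h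
    have hsr := Real.sqrt_pos.2 hr
    have hθ : |s / Real.sqrt r| ≤ Sw * Real.sqrt r⁻¹ := by
      rw [abs_of_nonneg (div_nonneg hs hsr.le), Real.sqrt_inv, ← div_eq_mul_inv]
      exact div_le_div_of_nonneg_right hsw hsr.le
    have h1 := h r⁻¹ (s / Real.sqrt r) (inv_pos.2 hr) hr0 hθ
    rw [Growth.tred, inv_inv] at h1
    have e2 : (s / Real.sqrt r) ^ 2 = s ^ 2 / r := by rw [div_pow, Real.sq_sqrt hr.le]
    have e4 : Caloric.poly8 S.κ (r⁻¹, s / Real.sqrt r) =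
        r⁻¹ ^ 4 * Caloric.profile8 (s ^ 2 / S.κ) := by
      simp only [Caloric.poly8, Caloric.profile8, e2]
      field_simp
    rw [e4] at h1
    have h2 : 0 < r⁻¹ ^ 4 := by positivity
    have e5 : r ^ 4 * red S.a S.k f r (s / Real.sqrt r) - γ * Caloric.profile8 (s ^ 2 / S.κ) =
        (red S.a S.k f r (s / Real.sqrt r) - γ * (r⁻¹ ^ 4 * Caloric.profile8 (s ^ 2 / S.κ))) /
          r⁻¹ ^ 4 := by
      field_simp
    rw [e5, abs_div, abs_of_pos h2, div_le_iff₀ h2]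
    exact h1
  have hp0 : Caloric.profile8 ((0 : ℝ) ^ 2 / S.κ) = 1 := by simp [Caloric.profile8]
  obtain ⟨τ₀, hτ₀, hb⟩ := core_approx hD hR hF S (ε / 2) 1 (by linarith) one_pos
  refine ⟨τ₀⁻¹, fun ν f hf => ?_⟩
  set F : ℝ → ℝ := fun r => r ^ 4 * red S.a S.k f r 0 with hF'
  have hF0 : ∀ (γ e Sw r τ₁ : ℝ), 0 < τ₁ → 0 ≤ Sw → τ₁⁻¹ ≤ r →
      (∀ τ θ : ℝ, 0 < τ → τ ≤ τ₁ → |θ| ≤ Sw * Real.sqrt τ →
        |Growth.tred S f τ θ - γ * Caloric.poly8 S.κ (τ, θ)| ≤ e * τ ^ 4) → |F r - γ| ≤ e := by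
    intro γ e Sw r τ₁ hτ₁ hSw hr h
    have hr0 : 0 < r := (inv_pos.2 hτ₁).trans_le hr
    have h1 := hval f γ e Sw 0 r τ₁ hr0 le_rfl hSw (inv_le_of_inv_le₀ hτ₁ hr) h
    rwa [hp0, mul_one, zero_div] at h1
  have hcauchy : CauchySeq F := by
    rw [Metric.cauchySeq_iff]
    intro e he
    obtain ⟨τ₁, hτ₁, hb₁⟩ := core_approx hD hR hF S (e / 3) 1 (by linarith) one_pos
    obtain ⟨γ, hγ⟩ := hb₁ ν f hf
    refine ⟨τ₁⁻¹, fun r hr r' hr' => ?_⟩
    have a1 := hF0 γ _ 1 r τ₁ hτ₁ zero_le_one hr hγ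
    have a2 := hF0 γ _ 1 r' τ₁ hτ₁ zero_le_one hr' hγ
    rw [Real.dist_eq]
    have := abs_sub_le (F r) γ (F r')
    rw [abs_sub_comm γ] at this
    linarith
  obtain ⟨γ, hγ⟩ := cauchySeq_tendsto_of_complete hcauchy
  have hclose : ∀ (γ' e τ₁ : ℝ), 0 < τ₁ → (∀ r, τ₁⁻¹ ≤ r → |F r - γ'| ≤ e) → |γ - γ'| ≤ e :=
    fun γ' e τ₁ _ h => le_of_tendsto ((hγ.sub_const γ').abs)
      ((eventually_ge_atTop τ₁⁻¹).mono h)
  refine ⟨γ, fun s hs => ?_, fun r hr => ?_⟩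
  · rw [Metric.tendsto_atTop]
    intro e he
    set P := Caloric.profile8 (s ^ 2 / S.κ)
    set e' := e / (2 * (1 + |P|))
    have he' : 0 < e' := by positivity
    obtain ⟨τ₁, hτ₁, hb₁⟩ := core_approx hD hR hF S e' (s + 1) he' (by linarith)
    obtain ⟨γ', hγ'⟩ := hb₁ ν f hf
    have hgg := hclose γ' e' τ₁ hτ₁ fun r hr =>
      hF0 γ' e' (s + 1) r τ₁ hτ₁ (by linarith) hr hγ'
    refine ⟨τ₁⁻¹, fun r hr => ?_⟩
    have hr0 : 0 < r := (inv_pos.2 hτ₁).trans_le hr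
    have h1 := hval f γ' e' (s + 1) s r τ₁ hr0 hs (by linarith) (inv_le_of_inv_le₀ hτ₁ hr) hγ'
    rw [Real.dist_eq]
    calc |r ^ 4 * red S.a S.k f r (s / Real.sqrt r) - γ * P|
        ≤ |r ^ 4 * red S.a S.k f r (s / Real.sqrt r) - γ' * P| + |γ' * P - γ * P| :=
          abs_sub_le _ _ _
      _ ≤ e' + e' * |P| := by
          refine add_le_add h1 ?_
          rw [← sub_mul, abs_mul, abs_sub_comm]
          exact mul_le_mul_of_nonneg_right hgg (abs_nonneg _)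
      _ = e / 2 := by simp only [e']; field_simp
      _ < e := by linarith
  · obtain ⟨γ', hγ'⟩ := hb ν f hf
    have a := hclose γ' (ε / 2) τ₀ hτ₀ fun r hr => hF0 γ' _ 1 r τ₀ hτ₀ zero_le_one hr hγ'
    have b := hF0 γ' _ 1 r τ₀ hτ₀ zero_le_one hr hγ'
    have c := abs_sub_le (F r) γ' γ
    rw [abs_sub_comm γ' γ] at c
    simp only [hF'] at b c
    linarith

end Vale.Agent.P363.Ext.Asymp
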