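import Vale.Agent.P363.Ext.Asymp.RateTerms
import Vale.Agent.P363.Ext.Polar

/-!
P363, asymptotics of the profiles: changing the time within a factor two changes the coefficients
by a higher power.
-/

noncomputable section

namespace Vale.Agent.P363.Ext.Asymp

open MeasureTheory Filter Set
open scoped BigOperators Topology

variable {S : Setup} {ν : ℝ} {f : Space → ℝ} {δ T T' : ℝ} {m : ℕ}

/-- The coefficient as an integral against the kernel solution. -/
lemma coeff_eq (S : Setup) (f : Space → ℝ) (δ T : ℝ) (m : ℕ) :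
    coeff S f δ T m = -(-1) ^ m * ∫ p : ℝ × ℝ, red S.a S.k f p.1⁻¹ p.2 *
      Heat.cut (deriv (Growth.downT T)) (Growth.cutθ δ) (kK S.κ m) p.1 p.2 := by
  rw [coeff, Heat.heatAvg, ← integral_const_mul]
  refine integral_congr_ae (Eventually.of_forall fun p => ?_)
  simp only [Growth.late, Heat.cut, kK, zero_sub, sub_zero, Heat.kernD_neg, Growth.tred]
  ring

/-- The coefficient integrand is integrable. -/
lemma integrable_late (hf : Profile S ν f) (hδ : 0 < δ) (hδ4 : δ ≤ 1 / 4) (hT : 0 < T)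
    (hTR : S.R₁ * (2 * T) < 1) :
    Integrable fun p : ℝ × ℝ => red S.a S.k f p.1⁻¹ p.2 *
      Heat.cut (deriv (Growth.downT T)) (Growth.cutθ δ) (kK S.κ m) p.1 p.2 := by
  have hR1 := Growth.one_le_R₁ S
  have hκ : 0 < S.κ := by rw [Setup.κ]; exact div_pos one_pos (mul_pos two_pos S.data.a_pos)
  refine Heat.integrable_of_zero_off (V := Ioo 0 S.R₁⁻¹ ×ˢ Ioo (-(1 / 2)) (1 / 2))
    (C := Icc T (2 * T) ×ˢ Icc (-δ) δ) (isOpen_Ioo.prod isOpen_Ioo)
    (isCompact_Icc.prod isCompact_Icc) (fun p hp => ?_) ?_ fun p hp => ?_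
  · refine ⟨⟨hT.trans_le hp.1.1, lt_of_le_of_lt hp.1.2 ?_⟩, ?_, ?_⟩
    · rw [inv_eq_one_div, lt_div_iff₀ (by linarith)]; linarith
    · linarith [hp.2.1]
    · linarith [hp.2.2]
  · refine (Heat.continuousOn_red hR1 hf.continuousOn).mul (((((contDiff_downT T
      (n := 1)).continuous_deriv le_rfl).comp continuous_fst).continuousOn.mul
      ((contDiff_cutθ δ (n := 0)).continuous.comp continuous_snd).continuousOn).mul ?_)
    exact ((Heat.kernSol S.κ 0 0 m hκ).1.continuousOn).mono fun p hp => ⟨hp.1.1, trivial⟩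
  · rw [mem_prod, not_and_or] at hp
    rcases hp with h | h
    · simp [Heat.cut, deriv_downT_zero hT h]
    · simp [Heat.cut, cutθ_zero hδ (le_of_not_gt fun h' => h ⟨(abs_lt.1 h').1.le,
        (abs_lt.1 h').2.le⟩)]

lemma rot_belt {R : ℝ} (φ : ℝ) (x : Space) : rot φ x ∈ belt R ↔ x ∈ belt R := by
  simp [belt, norm_rot, height_rot]

/-- The right hand side of the orbital equation, extended by zero. -/
def orbRhs (S : Setup) (ν : ℝ) (f : Space → ℝ) : Space → ℝ :=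
  (belt S.R₁).indicator fun x => 2 * (S.v x - S.μ + centrifugal ν x) * f x

lemma orbRhs_facts (hf : Profile S ν f) :
    (∀ φ x, orbRhs S ν f (rot φ x) = orbRhs S ν f x) ∧ Measurable (orbRhs S ν f) ∧
      WeakPoisson (belt S.R₁) f (orbRhs S ν f) := by
  classical
  have hU : IsOpen (belt S.R₁) := isOpen_belt S.R₁
  refine ⟨fun φ x => ?_, ?_, ?_⟩
  · have e : centrifugal ν (rot φ x) = centrifugal ν x := by
      simp only [centrifugal, rot_zero, rot_one]
      congr 1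
      linear_combination (x 0 ^ 2 + x 1 ^ 2) * Real.sin_sq_add_cos_sq φ
    by_cases h : x ∈ belt S.R₁
    · rw [orbRhs, indicator_of_mem h, indicator_of_mem ((rot_belt φ x).2 h), e, hf.axial.1,
        S.axial_v.1]
    · rw [orbRhs, indicator_of_notMem h, indicator_of_notMem fun h' => h ((rot_belt φ x).1 h')]
  · have hfm : Measurable ((belt S.R₁).piecewise f fun _ => (0 : ℝ)) :=
      hf.continuousOn.measurable_piecewise continuousOn_const hU.measurableSet
    have e : orbRhs S ν f = fun x =>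
        2 * (S.v x - S.μ + centrifugal ν x) * (belt S.R₁).piecewise f (fun _ => (0 : ℝ)) x := by
      funext x
      by_cases h : x ∈ belt S.R₁ <;> simp [orbRhs, h]
    rw [e]
    exact (measurable_const.mul ((S.meas_v.sub measurable_const).add
      (measurable_centrifugal ν))).mul hfm
  · obtain ⟨h1, h2, h3⟩ := hf.eqn
    refine ⟨h1, fun x hx => ?_, fun η hη => ?_⟩
    · obtain ⟨t, ht, hi⟩ := h2 x hx
      exact ⟨t, ht, hi.indicator hU.measurableSet⟩
    · rw [h3 η hη]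
      refine integral_congr_ae (Eventually.of_forall fun x => ?_)
      by_cases h : x ∈ belt S.R₁
      · simp only [orbRhs, indicator_of_mem h]
      · simp [orbRhs, h, image_eq_zero_of_notMem_tsupport fun h' => h (hη.supp h')]

/-- The right hand side in the time `1 / r`. -/
lemma rhs_le (hf : Profile S ν f) {τ θ : ℝ} (hτ : 0 < τ) (hτR : S.R₁ * τ < 1) (hθ : |θ| ≤ 1 / 4) :
    |Heat.rhs S.a S.k f (orbRhs S ν f) τ θ| ≤ |Growth.tred S f τ θ| *
      (2 * (|S.W (pt τ⁻¹ θ)| / τ ^ 2 + 1 + |(S.k / S.a - 1) * (S.k / S.a)|)) := by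
  have hR1 := Growth.one_le_R₁ S
  have hτi : 0 < τ⁻¹ := inv_pos.2 hτ
  obtain ⟨hn, -, -⟩ := Growth.pt_inv hτ (show |θ| ≤ 1 by linarith)
  have hb : pt τ⁻¹ θ ∈ belt S.R₁ := Heat.pt_mem_belt (by linarith)
    (by rw [lt_inv_comm₀ (by linarith) hτ, inv_eq_one_div, lt_div_iff₀ (by linarith)]; linarith)
    (by linarith)
  set x := pt τ⁻¹ θ with hx
  have e : red S.a S.k (orbRhs S ν f) τ⁻¹ θ =
      2 * (S.v x - S.μ + centrifugal ν x) * red S.a S.k f τ⁻¹ θ := by
    rw [red, red, ← hx, orbRhs, indicator_of_mem hb]; ring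
  set u := red S.a S.k f τ⁻¹ θ with hu
  have e2 : Heat.rhs S.a S.k f (orbRhs S ν f) τ θ = u * (2 * (S.W x / τ ^ 2 +
      centrifugal ν x / τ ^ 2 - (S.k / S.a - 1) * (S.k / S.a) / 2)) := by
    rw [Heat.rhs, e, Setup.W, hn, shift, ← hu]
    field_simp
    ring
  rw [e2, abs_mul, Growth.tred, ← hu, abs_mul, abs_two]
  rcases eq_or_ne u 0 with h0 | h0
  · simp [h0]
  refine mul_le_mul_of_nonneg_left (mul_le_mul_of_nonneg_left ?_ zero_le_two) (abs_nonneg _)
  have hν : ν = 0 ∨ ν = 1 / 2 := hf.sector.resolve_right fun hfz => h0 (by rw [hu, red, hfz]; simp)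
  have hc : |centrifugal ν x / τ ^ 2| ≤ 1 := by
    rw [abs_div, abs_of_pos (pow_pos hτ 2), div_le_one (by positivity)]
    refine (abs_centrifugal_le hν hb).1.trans (le_of_eq ?_)
    rw [hn, inv_pow, one_div, inv_inv]
  refine (abs_sub _ _).trans (add_le_add ((abs_add_le _ _).trans (add_le_add (le_of_eq ?_) hc)) ?_)
  · rw [abs_div, abs_of_pos (pow_pos hτ 2)]
  · rw [abs_div, abs_two]
    exact half_le_self (abs_nonneg _)

/-- The space majorant of the potential term at the time `T`. -/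
def massFn (S : Setup) (T : ℝ) (x : Space) : ℝ :=
  (zone T⁻¹).indicator (fun y => |S.W y|) x +
    T ^ 5 * {y : Space | T⁻¹ / 8 ≤ ‖y‖ ∧ ‖y‖ ≤ 8 * T⁻¹}.indicator (fun y => |S.W y|) x

lemma massFn_facts (hW : WMassStmt) (S : Setup) :
    ∃ α C T₀ : ℝ, 0 < α ∧ α ≤ 1 / 2 ∧ 0 ≤ C ∧ 0 < T₀ ∧ T₀ ≤ 1 ∧ ∀ T : ℝ, 0 < T → T ≤ T₀ →
      Measurable (massFn S T) ∧ (∀ φ x, massFn S T (rot φ x) = massFn S T x) ∧
        Integrable (massFn S T) ∧ T ^ 2 * ∫ x, massFn S T x ≤ C * (T ^ α * Real.sqrt T) := by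
  obtain ⟨α, C₁, R₀, hα, hR⟩ := hW S
  obtain ⟨C₂, hC₂, hann⟩ := annulus_mass S
  refine ⟨min α (1 / 2), |C₁| + C₂, (max (max R₀ 8) 1)⁻¹, lt_min hα (by norm_num), min_le_right _ _,
    by positivity, by positivity, inv_le_one_of_one_le₀ (le_max_right _ _), fun T hT hT0 => ?_⟩
  have hR' : max (max R₀ 8) 1 ≤ T⁻¹ := by rwa [le_inv_comm₀ (by positivity) hT]
  have h8 : 8 ≤ T⁻¹ := ((le_max_right _ _).trans (le_max_left _ _)).trans hR'
  have hT1 : T ≤ 1 := by
    have := inv_le_one_of_one_le₀ (le_max_right (max R₀ 8) 1)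
    linarith
  obtain ⟨hzi, hzb⟩ := hR T⁻¹ (((le_max_left _ _).trans (le_max_left _ _)).trans hR')
  obtain ⟨hai, hab⟩ := hann T⁻¹ h8
  set A := {y : Space | T⁻¹ / 8 ≤ ‖y‖ ∧ ‖y‖ ≤ 8 * T⁻¹} with hA
  have hWm : Measurable S.W := by
    unfold Setup.W farPot
    exact (S.meas_v.sub measurable_const).sub
      (measurable_const.sub (measurable_const.div measurable_norm))
  have hhm : Measurable (height : Space → ℝ) := by unfold height; fun_prop
  have hzm : MeasurableSet (zone T⁻¹) := (measurableSet_le measurable_const measurable_norm).inter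
    ((measurableSet_le measurable_norm measurable_const).inter
      (measurableSet_le hhm.abs measurable_const))
  have hAm : MeasurableSet A := (measurableSet_le measurable_const measurable_norm).inter
    (measurableSet_le measurable_norm measurable_const)
  have hWr : ∀ φ x, S.W (rot φ x) = S.W x := fun φ x => by
    simp only [Setup.W, S.axial_v.1, norm_rot]
  have i1 : Integrable ((zone T⁻¹).indicator fun y => |S.W y|) :=
    (integrable_indicator_iff hzm).2 hzi.abs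
  have i2 : Integrable (A.indicator fun y => |S.W y|) := (integrable_indicator_iff hAm).2 hai.abs
  refine ⟨(hWm.abs.indicator hzm).add ((hWm.abs.indicator hAm).const_mul _), fun φ x => ?_,
    i1.add (i2.const_mul _), ?_⟩
  · simp only [massFn, indicator, zone, Set.mem_setOf_eq, norm_rot, height_rot, hWr]
  · simp only [massFn]
    rw [integral_add i1 (i2.const_mul _), integral_const_mul, integral_indicator hzm,
      integral_indicator hAm, mul_add]
    have hTα : ∀ s : ℝ, min α (1 / 2) + 1 / 2 ≤ s → T ^ s ≤ T ^ min α (1 / 2) * Real.sqrt T := by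
      intro s hs
      rw [Real.sqrt_eq_rpow, ← Real.rpow_add hT]
      exact Real.rpow_le_rpow_of_exponent_ge hT hT1 hs
    have e1 : T ^ 2 * T⁻¹ ^ (3 / 2 - α : ℝ) = T ^ (α + 1 / 2) := by
      rw [Real.inv_rpow hT.le, ← Real.rpow_neg hT.le, ← Real.rpow_natCast T 2, ← Real.rpow_add hT]
      congr 1
      push_cast
      ring
    have p0 : 0 ≤ T ^ min α (1 / 2) * Real.sqrt T := by positivity
    have a1 : T ^ 2 * ∫ x in zone T⁻¹, |S.W x| ≤ |C₁| * (T ^ min α (1 / 2) * Real.sqrt T) := by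
      refine (mul_le_mul_of_nonneg_left (hzb.trans (mul_le_mul_of_nonneg_right (le_abs_self C₁)
        (by positivity))) (by positivity)).trans ?_
      rw [mul_left_comm, e1]
      exact mul_le_mul_of_nonneg_left (hTα _ (by linarith [min_le_left α (1 / 2)])) (abs_nonneg _)
    have a2 : T ^ 2 * (T ^ 5 * ∫ x in A, |S.W x|) ≤ C₂ * (T ^ min α (1 / 2) * Real.sqrt T) := by
      refine (mul_le_mul_of_nonneg_left (mul_le_mul_of_nonneg_left hab (by positivity))
        (by positivity)).trans ?_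
      rw [show T ^ 2 * (T ^ 5 * (C₂ * T⁻¹ ^ 3)) = C₂ * T ^ 4 by field_simp]
      refine mul_le_mul_of_nonneg_left ?_ hC₂
      rw [← Real.rpow_natCast T 4]
      exact hTα _ (by push_cast; linarith [min_le_right α (1 / 2)])
    linarith

/-- Outside the zone the weight is tiny. -/
lemma wgt_mass (S : Setup) {τ θ : ℝ} (hT : 0 < T) (hTτ : T ≤ τ) (hτT : τ ≤ 4 * T)
    (hθ : |θ| ≤ 1 / 4) :
    |S.W (pt τ⁻¹ θ)| / τ ^ 2 * wgt T θ ≤ 16 * T ^ 2 *
      (strip.indicator (fun q => q.1 ^ 2 * massFn S T (pt q.1 q.2)) (τ⁻¹, θ) / τ ^ 2) := by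
  have hτ : 0 < τ := hT.trans_le hTτ
  obtain ⟨hn, hh, -⟩ := Growth.pt_inv hτ (show |θ| ≤ 1 by linarith)
  have hs : (τ⁻¹, θ) ∈ strip := ⟨inv_pos.2 hτ, by linarith [(abs_le.1 hθ).1],
    by linarith [(abs_le.1 hθ).2]⟩
  rw [indicator_of_mem hs]
  simp only
  set x := pt τ⁻¹ θ with hx
  have hA : x ∈ {y : Space | T⁻¹ / 8 ≤ ‖y‖ ∧ ‖y‖ ≤ 8 * T⁻¹} := by
    refine ⟨?_, ?_⟩
    · rw [hn, div_le_iff₀ (by norm_num), inv_mul_eq_div, le_div_iff₀ hτ, ← div_eq_inv_mul,
        div_le_iff₀ hT]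
      linarith
    · rw [hn, ← div_eq_mul_inv, inv_eq_one_div, div_le_div_iff₀ hτ hT]
      linarith
  have hg : |S.W x| * wgt T θ ≤ massFn S T x := by
    have h0 : 0 ≤ |S.W x| := abs_nonneg _
    by_cases hz : x ∈ zone T⁻¹
    · rw [massFn, indicator_of_mem hz, indicator_of_mem hA]
      have := mul_le_of_le_one_right h0 (wgt_le_one T θ)
      have : 0 ≤ T ^ 5 * |S.W x| := by positivity
      linarith
    · rw [massFn, indicator_of_notMem hz, indicator_of_mem hA, zero_add, mul_comm (T ^ 5)]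
      refine mul_le_mul_of_nonneg_left ?_ h0
      have hzz : T⁻¹ ^ (5 / 8 : ℝ) < |height x| := not_le.1 fun h => hz ⟨hA.1, hA.2, h⟩
      rw [hh, abs_mul, abs_of_pos (inv_pos.2 hτ)] at hzz
      have hzz' : T⁻¹ ^ (5 / 8 : ℝ) < T⁻¹ * |θ| := hzz.trans_le
        (mul_le_mul_of_nonneg_right (inv_anti₀ hT hTτ) (abs_nonneg _))
      set t := T ^ (1 / 8 : ℝ) with ht
      have ht0 : 0 < t := Real.rpow_pos_of_pos hT _
      have e8 : t ^ 8 = T := by
        rw [ht, ← Real.rpow_natCast, ← Real.rpow_mul hT.le]; norm_num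
      have e4 : Real.sqrt T = t ^ 4 := by
        rw [Real.sqrt_eq_iff_mul_self_eq hT.le (by positivity), ← pow_add, e8]
      have e5 : T⁻¹ ^ (5 / 8 : ℝ) = (t ^ 5)⁻¹ := by
        rw [Real.inv_rpow hT.le, ht, ← Real.rpow_natCast (T ^ (1 / 8 : ℝ)) 5,
          ← Real.rpow_mul hT.le]
        norm_num
      have hy : t⁻¹ ≤ 1 + |θ| / Real.sqrt T := by
        rw [e5, ← e8] at hzz'
        rw [e4]
        field_simp at hzz'
        have : t ^ 3 ≤ |θ| := hzz'.le
        rw [inv_eq_one_div, div_le_iff₀ ht0]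
        field_simp
        nlinarith only [this, pow_pos ht0 4, abs_nonneg θ, ht0]
      rw [show T ^ 5 = t ^ 40 by rw [← e8, ← pow_mul], wgt]
      refine (inv_anti₀ (by positivity) (pow_le_pow_left₀ (by positivity) hy 40)).trans
        (le_of_eq ?_)
      rw [inv_pow, inv_inv]
  calc |S.W x| / τ ^ 2 * wgt T θ = τ ^ 2 * (|S.W x| * wgt T θ / τ ^ 4) := by field_simp
    _ ≤ (4 * T) ^ 2 * (massFn S T x / τ ^ 4) :=
        mul_le_mul (pow_le_pow_left₀ hτ.le hτT 2) (div_le_div_of_nonneg_right hg (by positivity))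
          (div_nonneg (mul_nonneg (abs_nonneg _) (wgt_pos T θ).le) (by positivity)) (by positivity)
    _ = _ := by field_simp; ring

lemma massFn_nonneg (S : Setup) (hT : 0 < T) (x : Space) : 0 ≤ massFn S T x :=
  add_nonneg (indicator_nonneg (fun y _ => abs_nonneg _) _) (mul_nonneg
    (by positivity) (indicator_nonneg (fun y _ => abs_nonneg _) _))

/-- The term of the right hand side. -/
lemma rhs_term_le (hf : Profile S ν f) {C X : ℝ} {Z : ℝ × ℝ → ℝ} (hT : 0 < T) (hC : 0 ≤ C)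
    (hδ4 : δ ≤ 1 / 4) (hTR : S.R₁ * (4 * T) < 1)
    (h0 : ∀ p : ℝ × ℝ, ¬(p.1 ∈ Icc T (4 * T) ∧ |p.2| ≤ δ) → Z p = 0)
    (hZ : ∀ p : ℝ × ℝ, p.1 ∈ Icc T (4 * T) → |p.2| ≤ δ →
      |Growth.tred S f p.1 p.2| * |Z p| ≤ C * (base T m * wgt T p.2))
    (gm : Measurable (massFn S T)) (gr : ∀ φ x, massFn S T (rot φ x) = massFn S T x)
    (gi : Integrable (massFn S T)) (gb : T ^ 2 * ∫ x, massFn S T x ≤ X) :
    |∫ p : ℝ × ℝ, Z p * Heat.rhs S.a S.k f (orbRhs S ν f) p.1 p.2| ≤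
      2 * C * (1 + |(S.k / S.a - 1) * (S.k / S.a)|) * (3 * Real.pi) *
          (base T m * (T * Real.sqrt T)) + 32 * C * (base T m * X) := by
  obtain ⟨hqi, hqe⟩ := meridian_bound gm gr gi
  obtain ⟨hwi, hwb⟩ := window_bound hT
  have hbase := base_nonneg hT.le m
  have hR1 := Growth.one_le_R₁ S
  set s₀ := |(S.k / S.a - 1) * (S.k / S.a)|
  set q := fun p : ℝ × ℝ =>
    strip.indicator (fun z => z.1 ^ 2 * massFn S T (pt z.1 z.2)) (p.1⁻¹, p.2) / p.1 ^ 2 with hq
  have hq0 : ∀ p, 0 ≤ q p := fun p => div_nonneg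
    (indicator_nonneg (fun z _ => mul_nonneg (sq_nonneg _) (massFn_nonneg S hT _)) _) (sq_nonneg _)
  set B1 := fun p : ℝ × ℝ => 2 * C * (1 + s₀) * base T m *
    ((Icc T (4 * T)).indicator (fun _ => (1 : ℝ)) p.1 * (1 + (p.2 / Real.sqrt T) ^ 2)⁻¹)
  have hB1 : Integrable B1 := hwi.const_mul _
  have hB2 : Integrable fun p => 32 * C * base T m * T ^ 2 * q p := hqi.const_mul _
  rw [← Real.norm_eq_abs]
  refine (norm_integral_le_of_norm_le (hB1.add hB2) (Eventually.of_forall fun p => ?_)).trans ?_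
  · rw [Real.norm_eq_abs, Pi.add_apply]
    by_cases h : p.1 ∈ Icc T (4 * T) ∧ |p.2| ≤ δ
    · have hp0 : 0 < p.1 := hT.trans_le h.1.1
      have hr := rhs_le hf hp0 (lt_of_le_of_lt
        (mul_le_mul_of_nonneg_left h.1.2 (by linarith)) hTR) (h.2.trans hδ4)
      rw [abs_mul]
      refine (mul_le_mul_of_nonneg_left hr (abs_nonneg _)).trans ?_
      rw [← mul_assoc, mul_comm |Z p|]
      refine (mul_le_mul_of_nonneg_right (hZ p h.1 h.2) (by positivity)).trans ?_
      have w1 := mul_le_mul_of_nonneg_left (wgt_le_inv T p.2)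
        (show 0 ≤ 2 * C * (1 + s₀) * base T m by positivity)
      have w2 := mul_le_mul_of_nonneg_left (wgt_mass S hT h.1.1 h.1.2 (h.2.trans hδ4))
        (show 0 ≤ 2 * C * base T m by positivity)
      simp only [B1, indicator_of_mem h.1, one_mul, hq]
      linarith only [w1, w2]
    · rw [h0 p h, zero_mul, abs_zero]
      exact add_nonneg (mul_nonneg (by positivity)
        (mul_nonneg (indicator_nonneg (fun _ _ => zero_le_one) _) (by positivity)))
        (mul_nonneg (by positivity) (hq0 p))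
  · simp only [Pi.add_apply, B1]
    rw [integral_add hB1 hB2, integral_const_mul, integral_const_mul, hqe]
    have e1 := mul_le_mul_of_nonneg_left hwb
      (show 0 ≤ 2 * C * (1 + s₀) * base T m by positivity)
    have hg0 : 0 ≤ ∫ x, massFn S T x := integral_nonneg fun x => massFn_nonneg S hT x
    have e2 := mul_le_mul_of_nonneg_left
      (div_le_self hg0 (show (1 : ℝ) ≤ 2 * Real.pi by linarith [Real.pi_gt_three]))
      (show 0 ≤ 32 * C * base T m * T ^ 2 by positivity)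
    have e3 := mul_le_mul_of_nonneg_left gb (show 0 ≤ 32 * C * base T m by positivity)
    linarith only [e1, e2, e3]

/-- The three bounds summed. -/
lemma combine_le {a C Cw s₀ α T I : ℝ} (ha : 0 < a) (hT : 0 < T) (hT1 : T ≤ 1) (hα2 : α ≤ 1 / 2)
    (hC : 0 ≤ C) (hs₀ : 0 ≤ s₀) (m : ℕ)
    (h : 2 * a * I ≤ C / Real.sqrt T * (3 * Real.pi) * (base T m * (T * Real.sqrt T)) +
      C * (3 * Real.pi) * (base T m * (T * Real.sqrt T)) +
      (2 * C * (1 + s₀) * (3 * Real.pi) * (base T m * (T * Real.sqrt T)) +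
        32 * C * (base T m * (Cw * (T ^ α * Real.sqrt T))))) :
    I ≤ (2 * C * (2 + s₀) * (3 * Real.pi) * 2 + 32 * C * Cw) / (2 * a) * T ^ α *
      (T ^ 4 / Real.sqrt T ^ m) := by
  have hs := Real.sqrt_pos.2 hT
  have hpow : Real.sqrt T ≤ T ^ α ∧ T ≤ T ^ α := by
    refine ⟨?_, ?_⟩
    · rw [Real.sqrt_eq_rpow]; exact Real.rpow_le_rpow_of_exponent_ge hT hT1 hα2
    · nth_rewrite 1 [← Real.rpow_one T]
      exact Real.rpow_le_rpow_of_exponent_ge hT hT1 (by linarith)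
  set Q := T ^ 4 / Real.sqrt T ^ m with hQ
  have hQ0 : 0 ≤ Q := by positivity
  have hbe : base T m * Real.sqrt T = Q := by
    rw [base, hQ, pow_succ (Real.sqrt T) m]; field_simp
  have eb : base T m * (T * Real.sqrt T) = T * Q := by rw [← hbe]; ring
  have e1 : C / Real.sqrt T * (3 * Real.pi) * (T * Q) = C * (3 * Real.pi) * (Real.sqrt T * Q) := by
    field_simp
    rw [Real.sq_sqrt hT.le]
  have e2 : base T m * (Cw * (T ^ α * Real.sqrt T)) = Cw * (T ^ α * Q) := by rw [← hbe]; ring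
  rw [eb, e1, e2] at h
  rw [div_mul_eq_mul_div, div_mul_eq_mul_div, le_div_iff₀ (mul_pos two_pos ha)]
  have f1 := mul_le_mul_of_nonneg_left (mul_le_mul_of_nonneg_right hpow.1 hQ0)
    (show 0 ≤ C * (3 * Real.pi) by positivity)
  have f2 := mul_le_mul_of_nonneg_left (mul_le_mul_of_nonneg_right hpow.2 hQ0)
    (show 0 ≤ C * (3 * Real.pi) + 2 * C * (1 + s₀) * (3 * Real.pi) by positivity)
  have f4 : 0 ≤ C * (3 * Real.pi) * (T ^ α * Q) * s₀ := by positivity
  have f5 : 0 ≤ C * (3 * Real.pi) * (T ^ α * Q) := by positivity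
  linarith only [h, f1, f2, f4, f5]

/-- The jump identity between two times, with the kernel solution. -/
lemma jump_coeff (hf : Profile S ν f) (hδ : 0 < δ) (hδ4 : δ ≤ 1 / 4) (hT : 0 < T) (h1 : T ≤ T')
    (h2 : T' ≤ 2 * T) (hTR : S.R₁ * (4 * T) < 1) {M : ℝ} (P : PhiFacts T T' M) :
    2 * S.a * |coeff S f δ T m - coeff S f δ T' m| ≤
      |∫ p : ℝ × ℝ, red S.a S.k f p.1⁻¹ p.2 *
          Heat.cutErr (phiT T T') (Growth.cutθ δ) (kK S.κ m) p.1 p.2| +
        |∫ p : ℝ × ℝ, red S.a S.k f p.1⁻¹ p.2 *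
          Heat.timeOp S.a S.k (Heat.cut (phiT T T') (Growth.cutθ δ) (kK S.κ m)) p.1 p.2| +
        |∫ p : ℝ × ℝ, Heat.cut (phiT T T') (Growth.cutθ δ) (kK S.κ m) p.1 p.2 *
          Heat.rhs S.a S.k f (orbRhs S ν f) p.1 p.2| ∧
    ∀ p : ℝ × ℝ, ¬(p.1 ∈ Icc T (4 * T) ∧ |p.2| ≤ δ) →
      Heat.cutErr (phiT T T') (Growth.cutθ δ) (kK S.κ m) p.1 p.2 = 0 ∧
      Heat.timeOp S.a S.k (Heat.cut (phiT T T') (Growth.cutθ δ) (kK S.κ m)) p.1 p.2 = 0 ∧
      Heat.cut (phiT T T') (Growth.cutθ δ) (kK S.κ m) p.1 p.2 = 0 := by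
  have ha := S.data.a_pos
  have hR1 := Growth.one_le_R₁ S
  have hR0 : 0 < S.R₁ := by linarith
  obtain ⟨hχc, hχs, -⟩ := cutθ_facts hδ
  have hκ : S.κ = 1 / (2 * S.a) := rfl
  have hκ0 : 0 < S.κ := by rw [hκ]; positivity
  have hsupp : tsupport (phiT T T') ⊆ Ioo 0 S.R₁⁻¹ ∩ Ioi 0 := fun τ hτ => by
    obtain ⟨a1, a2⟩ := P.supp hτ
    refine ⟨⟨hT.trans_le a1, ?_⟩, hT.trans_le a1⟩
    rw [inv_eq_one_div, lt_div_iff₀ hR0, mul_comm]
    exact lt_of_le_of_lt (mul_le_mul_of_nonneg_left a2 hR0.le) hTR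
  have hχs' : tsupport (Growth.cutθ δ) ⊆ Ioo (-(1 / 2)) (1 / 2) := hχs.trans fun t ht =>
    ⟨by linarith [ht.1], by linarith [ht.2]⟩
  have hsol : ∀ τ ∈ Ioi (0 : ℝ), ∀ θ, Heat.dT (kK S.κ m) τ θ =
      1 / (2 * S.a) * Heat.dY (Heat.dY (kK S.κ m)) τ θ + (fun _ _ : ℝ => (0 : ℝ)) τ θ :=
    fun τ hτ θ => by
    rw [add_zero, ← hκ]
    refine ((Heat.kernSol S.κ 0 0 m hκ0).2.1 τ θ hτ).trans ?_
    congr 1
    have hY : Heat.dY (kK S.κ m) τ = kK S.κ (m + 1) τ :=
      funext fun z => (Heat.kernSol S.κ 0 0 m hκ0).2.2 τ z hτ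
    rw [Heat.dY, hY]
    exact ((Heat.kernSol S.κ 0 0 (m + 1) hκ0).2.2 τ θ hτ).symm
  have hh : Heat.Cutoff S.a S.R₁ (phiT T T') (Growth.cutθ δ) (kK S.κ m) (fun _ _ => 0) (Ioi 0) :=
    ⟨isOpen_Ioi, P.smooth, P.compact, hsupp, contDiff_cutθ δ, hχc, hχs',
      (Heat.kernSol S.κ 0 0 m hκ0).1, continuous_const, hsol⟩
  constructor
  · obtain ⟨hr, hm', hP⟩ := orbRhs_facts hf
    have hj := Heat.jump identityStmt S.a S.k S.R₁ ha hR1 f (orbRhs S ν f) hf.continuousOn
      hf.axial.1 hr hm' hP (phiT T T') (Growth.cutθ δ) (kK S.κ m) (fun _ _ => 0) (Ioi 0)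
      isOpen_Ioi P.smooth P.compact hsupp (contDiff_cutθ δ) hχc hχs'
      (Heat.kernSol S.κ 0 0 m hκ0).1 continuous_const hsol
    have hd : coeff S f δ T m - coeff S f δ T' m = -(-1) ^ m * ∫ p : ℝ × ℝ,
        red S.a S.k f p.1⁻¹ p.2 *
          Heat.cut (deriv (phiT T T')) (Growth.cutθ δ) (kK S.κ m) p.1 p.2 := by
      rw [coeff_eq, coeff_eq, ← mul_sub, ← integral_sub
        (integrable_late hf hδ hδ4 hT (by linarith [mul_pos hR0 hT]))
        (integrable_late hf hδ hδ4 (hT.trans_le h1)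
          (by linarith [mul_le_mul_of_nonneg_left h2 hR0.le]))]
      congr 1
      refine integral_congr_ae (Eventually.of_forall fun p => ?_)
      simp only [Heat.cut, P.deriv_eq]
      ring
    have hw : ∀ p : ℝ × ℝ, Heat.cut (phiT T T') (Growth.cutθ δ) (fun _ _ => (0 : ℝ)) p.1 p.2 = 0 :=
      fun p => mul_zero _
    simp only [hw, mul_zero, integral_zero] at hj
    rw [hd, abs_mul, abs_neg, abs_pow, abs_neg, abs_one, one_pow, one_mul,
      show ∀ I : ℝ, 2 * S.a * |I| = |2 * S.a * I| from fun I => by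
        rw [abs_mul, abs_of_pos (mul_pos two_pos ha)]]
    refine le_trans (le_of_eq ?_) ((abs_sub _ _).trans (add_le_add (abs_add_le _ _) le_rfl))
    congr 1
    linarith only [hj]
  · intro p hp
    have hn : p ∉ tsupport (phiT T T') ×ˢ tsupport (Growth.cutθ δ) := fun h =>
      hp ⟨P.supp h.1, abs_le.2 (hχs h.2)⟩
    refine ⟨?_, hh.timeOp_zero hn, hh.eq_zero hn⟩
    rw [mem_prod, not_and_or] at hn
    rcases hn with hn | hn
    · simp [Heat.cutErr, image_eq_zero_of_notMem_tsupport hn]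
    · have hd1 : deriv (Growth.cutθ δ) p.2 = 0 := by
        by_contra h
        exact hn (support_deriv_subset h)
      have hd2 : deriv (deriv (Growth.cutθ δ)) p.2 = 0 := by
        by_contra h
        exact hn (closure_minimal support_deriv_subset (isClosed_tsupport _)
          (support_deriv_subset h))
      simp [Heat.cutErr, hd1, hd2]

/-- Changing the time within a factor two changes the coefficients by a higher power. -/
theorem rate_of (hGr : GrowthStmt) (hW : WMassStmt) : RateStmt := by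
  intro S
  obtain ⟨δ₀, τ₀, hδ₀, hδ4, hτ₀, hτ1, hτR, hterm⟩ := term_bound hGr S
  obtain ⟨α, Cw, T₁, hα, hα2, hCw, hT₁, hT₁1, hmass⟩ := massFn_facts hW S
  obtain ⟨M, hM, hphi⟩ := phi_facts
  refine ⟨δ₀, hδ₀, fun δ hδ hδle => ?_⟩
  have hterm' := hterm δ hδ hδle
  choose Cm hCm0 hCm using hterm'
  obtain ⟨C, hC0, hCm'⟩ : ∃ C, 0 ≤ C ∧ ∀ m ≤ 9, Cm m ≤ C :=
    ⟨∑ m ∈ Finset.range 10, Cm m, Finset.sum_nonneg fun i _ => hCm0 i, fun m hm =>
      Finset.single_le_sum (fun i _ => hCm0 i) (Finset.mem_range.2 (by omega))⟩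
  refine ⟨α, (2 * C * (2 + |(S.k / S.a - 1) * (S.k / S.a)|) * (3 * Real.pi) * 2 + 32 * C * Cw) /
    (2 * S.a), min (τ₀ / 4) T₁, hα, lt_min (by positivity) hT₁,
    fun ν f hf T T' hT h1 h2 h3 m hm => ?_⟩
  have h4 : 4 * T ≤ τ₀ := by linarith [h3.trans (min_le_left _ _)]
  have hR0 : 0 < S.R₁ := by linarith [Growth.one_le_R₁ S]
  have hTR : S.R₁ * (4 * T) < 1 :=
    lt_of_le_of_lt (mul_le_mul_of_nonneg_left h4 hR0.le) hτR
  have hδ14 : δ ≤ 1 / 4 := hδle.trans hδ4
  obtain ⟨hj, hz⟩ := jump_coeff (m := m) hf hδ hδ14 hT h1 h2 hTR (hphi T T' hT h1 h2)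
  have hb : ∀ p : ℝ × ℝ, p.1 ∈ Icc T (4 * T) → |p.2| ≤ δ →
      TermBound S f δ T T' m (Cm m) p.1 p.2 := fun p hp hp2 =>
    hCm m ν f hf T T' hT h1 h2 h4 p.1 p.2 hp.1 hp.2 hp2
  have hw : ∀ θ, 0 ≤ base T m * wgt T θ := fun θ =>
    mul_nonneg (base_nonneg hT.le m) (wgt_pos T θ).le
  have hEr := box_le (m := m) (G := fun p : ℝ × ℝ => red S.a S.k f p.1⁻¹ p.2 *
      Heat.cutErr (phiT T T') (Growth.cutθ δ) (kK S.κ m) p.1 p.2) (δ := δ)
    (c := C / Real.sqrt T) hT (by positivity) (fun p hp => by simp [(hz p hp).1])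
    fun p hp hp2 => (hb p hp hp2).err.trans (mul_le_mul_of_nonneg_right
      (div_le_div_of_nonneg_right (hCm' m hm) (Real.sqrt_nonneg _)) (hw _))
  have hOp := box_le (m := m) (G := fun p : ℝ × ℝ => red S.a S.k f p.1⁻¹ p.2 *
      Heat.timeOp S.a S.k (Heat.cut (phiT T T') (Growth.cutθ δ) (kK S.κ m)) p.1 p.2) (δ := δ)
    (c := C) hT hC0 (fun p hp => by simp [(hz p hp).2.1])
    fun p hp hp2 => (hb p hp hp2).op.trans (mul_le_mul_of_nonneg_right (hCm' m hm) (hw _))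
  obtain ⟨gm, gr, gi, gb⟩ := hmass T hT (by linarith [h3.trans (min_le_right _ _)])
  have hRh := rhs_term_le (m := m) (δ := δ) hf (C := C)
    (Z := fun p => Heat.cut (phiT T T') (Growth.cutθ δ) (kK S.κ m) p.1 p.2) hT hC0 hδ14 hTR
    (fun p hp => (hz p hp).2.2)
    (fun p hp hp2 => by
      have h := (hb p hp hp2).main
      rw [abs_mul] at h
      exact h.trans (mul_le_mul_of_nonneg_right (hCm' m hm) (hw _))) gm gr gi gb
  exact combine_le S.data.a_pos hT (by linarith) hα2 hC0 (abs_nonneg _) m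
    (hj.trans (add_le_add (add_le_add hEr hOp) hRh))

end Vale.Agent.P363.Ext.Asymp
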