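import Vale.Agent.P363.Ext.Asymp.Spec
import Vale.Agent.P363.Ext.KernelSmall
import Vale.Agent.P363.Ext.Bulk
import Vale.Agent.P363.Ext.Budget
import Vale.Agent.P363.Tool.YukRep

/-!
P363, Kohn-Sham side, asymptotics of the profiles: the mass of the potential near the plane.

With `q = R ^ (1 / 8)`: the band `|z| ≤ q⁻⁵` by Hölder against the ring potential; above it every
ball of radius `min (z, 1) / 32` has average `O (q⁻¹²)`, from the average of the defect and the
budget identity with the growth bound, and the balls cover the region.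
-/

noncomputable section

namespace Vale.Agent.P363.Ext.Asymp

open MeasureTheory Filter Metric Set
open scoped BigOperators Topology ENNReal ContDiff

/-- Averages over balls of slowly varying radius control the integral. -/
lemma cover_le {f : Space → ℝ≥0∞} (hf : Measurable f) {A A' : Set Space} (hA : MeasurableSet A)
    {s : Space → ℝ} (hs : Continuous s) (hlip : ∀ x y, |s x - s y| ≤ dist x y / 8)
    (hpos : ∀ y ∈ A, 0 < s y) (hsub : ∀ y ∈ A, ball y (s y / 2) ⊆ A') {K : ℝ≥0∞}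
    (hK : ∀ x ∈ A', ∫⁻ y in ball x (s x), f y ≤ K * volume (ball x (s x))) :
    ∫⁻ y in A, f y ≤ 64 * (K * volume A') := by
  set V := volume (ball (0 : Space) 1) with hV
  have hvol : ∀ (x : Space) (t : ℝ), 0 ≤ t → volume (ball x t) = ENNReal.ofReal (t ^ 3) * V :=
    fun x t ht => by rw [Measure.addHaar_ball volume x ht, finrank_euclideanSpace_fin]
  have hV0 : V ≠ 0 := (measure_ball_pos volume 0 one_pos).ne'
  have hVt : V ≠ ⊤ := measure_ball_lt_top.ne
  set w : Space → ℝ≥0∞ := fun x => (ENNReal.ofReal (s x ^ 3) * V)⁻¹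
  have hw : Measurable w := ((hs.pow 3).measurable.ennreal_ofReal.mul_const V).inv
  set g : Space × Space → ℝ≥0∞ :=
    {p : Space × Space | dist p.2 p.1 < s p.1}.indicator fun p => w p.1 * f p.2 with hg
  have hgm : Measurable g :=
    ((hw.comp measurable_fst).mul (hf.comp measurable_snd)).indicator
      (isOpen_lt (continuous_snd.dist continuous_fst) (hs.comp continuous_fst)).measurableSet
  have hin : ∀ x ∈ A', ∫⁻ y, g (x, y) ≤ K := by
    intro x hx
    have e : ∀ y, g (x, y) = (ball x (s x)).indicator (fun y => w x * f y) y := fun y => by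
      by_cases h : dist y x < s x <;> simp [hg, h, mem_ball]
    simp only [e]
    rw [lintegral_indicator measurableSet_ball, lintegral_const_mul _ hf]
    rcases le_or_gt (s x) 0 with h | h
    · simp [ball_eq_empty.2 h]
    · refine (mul_le_mul_right (hK x hx) _).trans (le_of_eq ?_)
      rw [hvol x (s x) h.le, mul_comm K, ← mul_assoc, ENNReal.inv_mul_cancel
        (mul_ne_zero (by simpa using pow_pos h 3) hV0)
        (ENNReal.mul_ne_top ENNReal.ofReal_ne_top hVt), one_mul]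
  have hlow : ∀ y ∈ A, f y ≤ 64 * ∫⁻ x in A', g (x, y) := by
    intro y hy
    have h0 := hpos y hy
    have hnear : ∀ x ∈ ball y (s y / 2),
        (ENNReal.ofReal (8 * s y ^ 3) * V)⁻¹ * f y ≤ g (x, y) := by
      intro x hx
      rw [mem_ball] at hx
      have hl := abs_le.1 (hlip x y)
      have hmem : (x, y) ∈ {p : Space × Space | dist p.2 p.1 < s p.1} := by
        show dist y x < s x
        rw [dist_comm]; linarith [hl.1]
      rw [hg, Set.indicator_of_mem hmem]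
      refine mul_le_mul_left (ENNReal.inv_le_inv.2 (mul_le_mul_left (ENNReal.ofReal_le_ofReal ?_) _)) _
      have h1 : 0 ≤ s x := by linarith [hl.1, dist_nonneg (x := x) (y := y)]
      calc s x ^ 3 ≤ (2 * s y) ^ 3 := pow_le_pow_left₀ h1 (by linarith [hl.2]) 3
        _ = 8 * s y ^ 3 := by ring
    have h2 : ∫⁻ _x in ball y (s y / 2), (ENNReal.ofReal (8 * s y ^ 3) * V)⁻¹ * f y ≤
        ∫⁻ x in A', g (x, y) :=
      (setLIntegral_mono' measurableSet_ball hnear).trans (lintegral_mono_set (hsub y hy))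
    rw [setLIntegral_const, hvol y (s y / 2) (by linarith)] at h2
    have e : ENNReal.ofReal ((s y / 2) ^ 3) * V =
        ENNReal.ofReal (1 / 64) * (ENNReal.ofReal (8 * s y ^ 3) * V) := by
      rw [← mul_assoc, ← ENNReal.ofReal_mul (by norm_num)]
      congr 2; ring
    rw [e, mul_right_comm, ← mul_assoc, mul_comm _ (ENNReal.ofReal (1 / 64)),
      mul_assoc (ENNReal.ofReal (1 / 64)), ENNReal.inv_mul_cancel
      (mul_ne_zero (by simpa using pow_pos h0 3) hV0)
      (ENNReal.mul_ne_top ENNReal.ofReal_ne_top hVt), mul_one] at h2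
    calc f y = 64 * (ENNReal.ofReal (1 / 64) * f y) := by
          rw [← mul_assoc, show (64 : ℝ≥0∞) = ENNReal.ofReal 64 by simp,
            ← ENNReal.ofReal_mul (by norm_num)]
          norm_num
      _ ≤ _ := mul_le_mul_right h2 _
  calc ∫⁻ y in A, f y ≤ ∫⁻ y in A, 64 * ∫⁻ x in A', g (x, y) := setLIntegral_mono' hA hlow
    _ ≤ ∫⁻ y, 64 * ∫⁻ x in A', g (x, y) := setLIntegral_le_lintegral _ _
    _ = 64 * ∫⁻ x in A', ∫⁻ y, g (x, y) := by
        rw [lintegral_const_mul' _ _ (by simp)]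
        congr 1
        exact lintegral_lintegral_swap (f := fun y x => g (x, y))
          (hgm.comp measurable_swap).aemeasurable
    _ ≤ 64 * (K * volume A') := by
        refine mul_le_mul_right ?_ _
        rw [← setLIntegral_const]
        exact setLIntegral_mono measurable_const hin

/-- The radius of the balls. -/
def rad (x : Space) : ℝ := min (height x) 1 / 32

lemma continuous_height : Continuous height :=
  (EuclideanSpace.proj (𝕜 := ℝ) (2 : Fin 3)).continuous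

lemma continuous_rad : Continuous rad :=
  (continuous_height.min continuous_const).div_const _

lemma rad_lip (x y : Space) : |rad x - rad y| ≤ dist x y / 8 := by
  have h := (abs_min_sub_min_le_max (height x) 1 (height y) 1).trans
    (max_le (abs_height_sub_le x y) (by simp [dist_nonneg]))
  rw [rad, rad, ← sub_div, abs_div, abs_of_pos (by norm_num : (0 : ℝ) < 32)]
  linarith [dist_nonneg (x := x) (y := y), abs_nonneg (min (height x) 1 - min (height y) 1)]

/-- The excess density near the plane has the size of degree eight. -/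
lemma part_le (hGr : GrowthStmt) (hGd : GroundStmt) (S : Setup) :
    ∃ K q₀ : ℝ, 0 ≤ K ∧ 1 ≤ q₀ ∧ ∀ q : ℝ, q₀ ≤ q → ∀ y : Space, q ^ 8 / 16 ≤ ‖y‖ →
      |height y| ≤ 4 * q ^ 5 → S.n y - S.φu y ^ 2 ≤ K / q ^ 32 * S.G y ^ 2 := by
  obtain ⟨B, δ, Rg, hδ, hB⟩ := hGr S
  obtain ⟨B', δ', Rd, hδ', hB'⟩ := hGd S 3
  refine ⟨(16 : ℝ) ^ 6 * (17 ^ 16 * |B| + 2 * B' ^ 2),
    max (max 1 (64 / min δ δ')) (16 * max Rg Rd), by positivity,
    (le_max_left _ _).trans (le_max_left _ _), fun q hq y hy hz => ?_⟩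
  have hq1 : 1 ≤ q := ((le_max_left _ _).trans (le_max_left _ _)).trans hq
  have hq0 : 0 < q := by linarith
  have hqd : 64 / min δ δ' ≤ q := ((le_max_right _ _).trans (le_max_left _ _)).trans hq
  have hqR : 16 * max Rg Rd ≤ q := (le_max_right _ _).trans hq
  have hq8 : q ≤ q ^ 8 := le_self_pow₀ hq1 (by norm_num)
  have hr : 0 < ‖y‖ := lt_of_lt_of_le (by positivity) hy
  have hR : Rg ≤ ‖y‖ ∧ Rd ≤ ‖y‖ :=
    ⟨by linarith [le_max_left Rg Rd], by linarith [le_max_right Rg Rd]⟩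
  have hzd : |height y| ≤ min δ δ' * ‖y‖ := by
    have hm : 0 < min δ δ' := lt_min hδ hδ'
    rw [div_le_iff₀ hm] at hqd
    calc |height y| ≤ 4 * q ^ 5 := hz
      _ ≤ q * min δ δ' / 16 * q ^ 5 := by
          refine mul_le_mul_of_nonneg_right ?_ (by positivity); linarith
      _ = min δ δ' / 16 * q ^ 6 := by ring
      _ ≤ min δ δ' / 16 * q ^ 8 :=
          mul_le_mul_of_nonneg_left (pow_le_pow_right₀ hq1 (by norm_num)) (by positivity)
      _ = min δ δ' * (q ^ 8 / 16) := by ring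
      _ ≤ _ := mul_le_mul_of_nonneg_left hy hm.le
  have g1 := hB y hR.1 (hzd.trans (mul_le_mul_of_nonneg_right (min_le_left _ _) hr.le))
  have g2 := hB' y hR.2 (hzd.trans (mul_le_mul_of_nonneg_right (min_le_right _ _) hr.le))
  have h6 : ((‖y‖ ^ 3)⁻¹) ^ 2 ≤ 16 ^ 6 / q ^ 48 := by
    rw [inv_pow, ← pow_mul, show (16 : ℝ) ^ 6 / q ^ 48 = ((q ^ 8 / 16) ^ 6)⁻¹ by
      rw [div_pow, inv_div, ← pow_mul]]
    exact inv_anti₀ (by positivity) (pow_le_pow_left₀ (by positivity) hy 6)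
  have hs : q ^ 4 / 4 ≤ Real.sqrt ‖y‖ := by
    refine Real.le_sqrt_of_sq_le (le_trans (le_of_eq ?_) hy)
    ring
  have hw : (1 + |height y| / Real.sqrt ‖y‖) ^ 16 ≤ 17 ^ 16 * q ^ 16 := by
    rw [← mul_pow]
    refine pow_le_pow_left₀ (by positivity) ?_ 16
    have : |height y| / Real.sqrt ‖y‖ ≤ 16 * q := by
      refine (div_le_div₀ (by positivity) hz (by positivity) hs).trans_eq ?_
      field_simp
      ring
    linarith
  have hφ : S.φ₀ y ^ 2 ≤ B' ^ 2 * (16 ^ 6 / q ^ 48) * S.G y ^ 2 := by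
    calc S.φ₀ y ^ 2 ≤ (B' / ‖y‖ ^ 3 * S.G y) ^ 2 := pow_le_pow_left₀ (S.nonneg₀ y) g2 2
      _ = B' ^ 2 * ((‖y‖ ^ 3)⁻¹) ^ 2 * S.G y ^ 2 := by ring
      _ ≤ _ := by gcongr
  have hp : B * (((‖y‖ ^ 3)⁻¹ * (1 + |height y| / Real.sqrt ‖y‖) ^ 8 * S.G y)) ^ 2 ≤
      |B| * (16 ^ 6 / q ^ 48) * (17 ^ 16 * q ^ 16) * S.G y ^ 2 := by
    calc _ ≤ |B| * (((‖y‖ ^ 3)⁻¹ * (1 + |height y| / Real.sqrt ‖y‖) ^ 8 * S.G y)) ^ 2 :=
          mul_le_mul_of_nonneg_right (le_abs_self B) (sq_nonneg _)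
      _ = |B| * ((‖y‖ ^ 3)⁻¹) ^ 2 * (1 + |height y| / Real.sqrt ‖y‖) ^ 16 * S.G y ^ 2 := by
          ring
      _ ≤ _ := by gcongr
  have h48 : (16 : ℝ) ^ 6 / q ^ 48 ≤ 16 ^ 6 / q ^ 32 :=
    div_le_div_of_nonneg_left (by positivity) (by positivity) (pow_le_pow_right₀ hq1 (by norm_num))
  have e : (16 : ℝ) ^ 6 / q ^ 48 * q ^ 16 = 16 ^ 6 / q ^ 32 := by field_simp
  calc S.n y - S.φu y ^ 2 ≤ |B| * (16 ^ 6 / q ^ 48) * (17 ^ 16 * q ^ 16) * S.G y ^ 2 +
        2 * (B' ^ 2 * (16 ^ 6 / q ^ 32) * S.G y ^ 2) := by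
        nlinarith [g1.trans hp, hφ, mul_le_mul_of_nonneg_left h48
          (mul_nonneg (sq_nonneg B') (sq_nonneg (S.G y)))]
    _ = _ := by
        rw [show |B| * ((16 : ℝ) ^ 6 / q ^ 48) * (17 ^ 16 * q ^ 16) =
          |B| * 17 ^ 16 * (16 ^ 6 / q ^ 48 * q ^ 16) by ring, e]
        ring

lemma scaled_bump : ∃ (L : ℝ), 0 ≤ L ∧ ∀ (x : Space) (s : ℝ) (hs : 0 < s),
    ∀ y, |lap (fun z => (⟨s, 2 * s, hs, by linarith⟩ : ContDiffBump (0 : Space)) (z - x)) y| ≤
      L / s ^ 2 := by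
  let β : ContDiffBump (0 : Space) := ⟨1, 2, one_pos, one_lt_two⟩
  have hβb : IsBump Set.univ (β : Space → ℝ) :=
    ⟨β.contDiff, β.hasCompactSupport, subset_univ _⟩
  obtain ⟨L, hL⟩ := hβb.lap.smooth.continuous.bounded_above_of_compact_support hβb.lap.compact
  refine ⟨L, (norm_nonneg _).trans (hL 0), fun x s hs y => ?_⟩
  have e : ((⟨s, 2 * s, hs, by linarith⟩ : ContDiffBump (0 : Space)) : Space → ℝ) =
      fun z => β (s⁻¹ • z) := by
    funext z
    simp only [ContDiffBump.apply, β, sub_zero, inv_one, one_smul, div_one]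
    congr 1
    field_simp
  have hd : Differentiable ℝ (β : Space → ℝ) := (β.contDiff (n := 1)).differentiable one_ne_zero
  have hd2 : ∀ a, Differentiable ℝ (deriv3 a (β : Space → ℝ)) := fun a =>
    (hβb.deriv a).differentiable
  have e2 : ∀ a, deriv3 a (deriv3 a fun z => β (s⁻¹ • z)) =
      fun z => s⁻¹ * (s⁻¹ * deriv3 a (deriv3 a β) (s⁻¹ • z)) := fun a => by
    rw [Yuk.deriv3_comp_smul hd]
    funext z
    rw [deriv3_const_mul (f := fun y => deriv3 a (β : Space → ℝ) (s⁻¹ • y))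
      (((hd2 a).comp (differentiable_id.const_smul s⁻¹)) z), Yuk.deriv3_comp_smul (hd2 a)]
  rw [lap_shift, e]
  have e3 : lap (fun z => β (s⁻¹ • z)) (y - x) = (s ^ 2)⁻¹ * lap β (s⁻¹ • (y - x)) := by
    simp only [lap, e2, ← Finset.mul_sum]
    ring
  rw [e3, abs_mul, abs_of_nonneg (by positivity), div_eq_inv_mul]
  exact mul_le_mul_of_nonneg_left (hL _) (by positivity)

/-- The defect on the doubled ball. -/
lemma mid_defect (S : Setup) {q : ℝ} (hq : 18 ≤ q) {x : Space} (hR0 : S.R₀ ≤ ‖x‖)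
    (hx : q ^ 8 / 9 ≤ ‖x‖) (hz1 : (q ^ 5)⁻¹ / 2 ≤ height x) :
    IntegrableOn S.X (ball x (2 * rad x)) ∧ ∫ y in ball x (2 * rad x), |S.X y| ≤
      |S.C| * 512 * (9 ^ 2 + 9 ^ 6 * 16) / q ^ 12 * rad x ^ 3 := by
  have hq1 : 1 ≤ q := by linarith
  have hq0 : 0 < q := by linarith
  have hr0 : 0 < ‖x‖ := lt_of_lt_of_le (by positivity) hx
  have hz0 : 0 < height x := lt_of_lt_of_le (by positivity) hz1
  have hzi : (height x)⁻¹ ≤ 2 * q ^ 5 :=
    (inv_anti₀ (by positivity) hz1).trans_eq (by rw [inv_div, div_inv_eq_mul])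
  have hzr : ‖x‖⁻¹ ≤ |height x| := by
    rw [abs_of_pos hz0]
    refine le_trans ?_ hz1
    rw [show (q ^ 5)⁻¹ / 2 = (2 * q ^ 5)⁻¹ by rw [mul_inv]; ring]
    refine inv_anti₀ (by positivity) (le_trans ?_ hx)
    have h3 : (18 : ℝ) ≤ q ^ 3 := hq.trans (le_self_pow₀ hq1 (by norm_num))
    nlinarith [mul_le_mul_of_nonneg_left h3 (by positivity : 0 ≤ q ^ 5)]
  obtain ⟨hXi, hXle⟩ := S.data.defect_avg x hR0 hzr
  have hρ : min |height x| 1 / 4 = 8 * rad x := by
    rw [abs_of_pos hz0, rad]; ring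
  rw [hρ] at hXi hXle
  have hs : 0 ≤ rad x := div_nonneg (le_min hz0.le zero_le_one) (by norm_num)
  have hsub : ball x (2 * rad x) ⊆ ball x (8 * rad x) := ball_subset_ball (by linarith)
  refine ⟨hXi.mono_set hsub, (setIntegral_mono_set hXi.abs
    (Eventually.of_forall fun y => abs_nonneg _) hsub.eventuallyLE).trans (hXle.trans ?_)⟩
  have a1 : (‖x‖ ^ 2)⁻¹ ≤ 9 ^ 2 / q ^ 12 := by
    refine (inv_anti₀ (by positivity) (pow_le_pow_left₀ (by positivity) hx 2)).trans ?_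
    rw [div_pow, inv_div]
    exact div_le_div_of_nonneg_left (by norm_num) (by positivity)
      (by rw [← pow_mul]; exact pow_le_pow_right₀ hq1 (by norm_num))
  have a2 : (‖x‖ ^ 6 * |height x| ^ 4)⁻¹ ≤ 9 ^ 6 * 16 / q ^ 12 := by
    rw [abs_of_pos hz0, mul_inv, ← inv_pow (height x)]
    calc (‖x‖ ^ 6)⁻¹ * (height x)⁻¹ ^ 4 ≤ ((q ^ 8 / 9) ^ 6)⁻¹ * (2 * q ^ 5) ^ 4 := by
          gcongr
      _ = 9 ^ 6 * 16 / q ^ 28 := by field_simp; ring
      _ ≤ _ := div_le_div_of_nonneg_left (by norm_num) (by positivity)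
          (pow_le_pow_right₀ hq1 (by norm_num))
  calc S.C * (8 * rad x) ^ 3 * ((‖x‖ ^ 2)⁻¹ + (‖x‖ ^ 6 * |height x| ^ 4)⁻¹)
      ≤ |S.C| * (8 * rad x) ^ 3 * (9 ^ 2 / q ^ 12 + 9 ^ 6 * 16 / q ^ 12) :=
        mul_le_mul (mul_le_mul_of_nonneg_right (le_abs_self _) (by positivity))
          (add_le_add a1 a2) (by positivity) (by positivity)
    _ = _ := by ring

/-- The arithmetic of the budget. -/
lemma mid_arith {K₀ L₁ M0 V1 CX q z s I : ℝ} (hK₀ : 0 ≤ K₀) (hL₁ : 0 ≤ L₁) (hM0 : 0 ≤ M0)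
    (hV1 : 0 ≤ V1) (hq : 1 ≤ q) (hz : (q ^ 5)⁻¹ / 2 ≤ z) (hs : s = min z 1 / 32) (hI0 : 0 ≤ I)
    (hI : I ≤ CX / q ^ 12 * s ^ 3) :
    4 * K₀ / q ^ 32 / z ^ 2 * ((L₁ / s ^ 2 + 2 * M0) * (8 * V1 * s ^ 3) + 2 * I) ≤
      ((4 * 1024 * 20 * K₀ * L₁ + 32 * K₀ * M0) * (8 * V1) + 32 * K₀ * CX) / q ^ 12 * s ^ 3 := by
  have hq0 : 0 < q := by linarith
  have hz0 : 0 < z := lt_of_lt_of_le (by positivity) hz
  have hs0 : 0 < s := by rw [hs]; exact div_pos (lt_min hz0 one_pos) (by norm_num)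
  have hzi : z⁻¹ ≤ 2 * q ^ 5 :=
    (inv_anti₀ (by positivity) hz).trans_eq (by rw [inv_div, div_inv_eq_mul])
  have hzsq : z⁻¹ ^ 2 ≤ 4 * q ^ 10 := by
    refine (pow_le_pow_left₀ (by positivity) hzi 2).trans_eq ?_; ring
  set ε' := 4 * K₀ / q ^ 32 / z ^ 2 with hεd
  have e1 : ε' = 4 * K₀ / q ^ 32 * z⁻¹ ^ 2 := by rw [hεd, inv_pow]; ring
  have hε1 : ε' ≤ 16 * K₀ / q ^ 22 := by
    rw [e1]
    calc 4 * K₀ / q ^ 32 * z⁻¹ ^ 2 ≤ 4 * K₀ / q ^ 32 * (4 * q ^ 10) :=
          mul_le_mul_of_nonneg_left hzsq (by positivity)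
      _ = _ := by field_simp; ring
  have hε12 : ε' ≤ 16 * K₀ / q ^ 12 := hε1.trans (div_le_div_of_nonneg_left (by positivity)
    (by positivity) (pow_le_pow_right₀ hq (by norm_num)))
  have h1 : (s ^ 2)⁻¹ ≤ 1024 * (z⁻¹ ^ 2 + 1) := by
    rw [hs, div_pow, inv_div]
    rcases le_total z 1 with h | h
    · rw [min_eq_left h, div_eq_mul_inv, inv_pow]
      nlinarith [inv_nonneg.2 (sq_nonneg z)]
    · rw [min_eq_right h]
      nlinarith [sq_nonneg z⁻¹]
  have h4 : z⁻¹ ^ 2 * (z⁻¹ ^ 2 + 1) ≤ 20 * q ^ 20 := by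
    calc _ ≤ 4 * q ^ 10 * (4 * q ^ 10 + q ^ 10) :=
          mul_le_mul hzsq (add_le_add hzsq (one_le_pow₀ hq)) (by positivity) (by positivity)
      _ = _ := by ring
  have hεs : ε' * (L₁ / s ^ 2) ≤ 4 * 1024 * 20 * K₀ * L₁ / q ^ 12 := by
    rw [e1, div_eq_mul_inv L₁]
    calc 4 * K₀ / q ^ 32 * z⁻¹ ^ 2 * (L₁ * (s ^ 2)⁻¹)
        ≤ 4 * K₀ / q ^ 32 * z⁻¹ ^ 2 * (L₁ * (1024 * (z⁻¹ ^ 2 + 1))) := by gcongr
      _ = 4 * 1024 * K₀ * L₁ / q ^ 32 * (z⁻¹ ^ 2 * (z⁻¹ ^ 2 + 1)) := by ring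
      _ ≤ 4 * 1024 * K₀ * L₁ / q ^ 32 * (20 * q ^ 20) :=
          mul_le_mul_of_nonneg_left h4 (by positivity)
      _ = _ := by field_simp
  have b1 : ε' * (2 * M0) ≤ 32 * K₀ * M0 / q ^ 12 :=
    (mul_le_mul_of_nonneg_right hε12 (by linarith)).trans_eq (by ring)
  have b2 : ε' * (2 * I) ≤ 32 * K₀ * CX / q ^ 12 * s ^ 3 := by
    refine (mul_le_mul (hε12.trans (div_le_self (by positivity) (one_le_pow₀ hq)))
      (mul_le_mul_of_nonneg_left hI zero_le_two) (by linarith) (by positivity)).trans_eq ?_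
    ring
  calc _ = (ε' * (L₁ / s ^ 2) + ε' * (2 * M0)) * (8 * V1 * s ^ 3) + ε' * (2 * I) := by ring
    _ ≤ (4 * 1024 * 20 * K₀ * L₁ / q ^ 12 + 32 * K₀ * M0 / q ^ 12) * (8 * V1 * s ^ 3) +
        32 * K₀ * CX / q ^ 12 * s ^ 3 :=
          add_le_add (mul_le_mul_of_nonneg_right (add_le_add hεs b1) (by positivity)) b2
    _ = _ := by ring

/-- The gap between `√n` and the odd orbital on the doubled ball. -/
lemma mid_gap (S : Setup) {c' CG K₀ q : ℝ} {x y : Space} (hc' : 0 < c') (hCG : 0 < CG)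
    (hK₀ : 0 ≤ K₀) (hq : 1 ≤ q) (hlow : c' * height y * S.G y ≤ S.φu y)
    (hp : S.n y - S.φu y ^ 2 ≤ K₀ / q ^ 32 * S.G y ^ 2) (hz0 : 0 < height x)
    (hy3 : height x / 2 ≤ height y) (hy2 : height y ≤ 2 * height x)
    (hu : S.G y ≤ CG * tailG S.a S.k ‖x‖) (hd : tailG S.a S.k ‖x‖ ≤ CG * S.G y)
    (hy1 : 0 < ‖y‖) (hx1 : 0 < ‖x‖) :
    0 ≤ Real.sqrt (S.n y) - S.φu y ∧
      Real.sqrt (S.n y) - S.φu y ≤
        4 * K₀ / q ^ 32 / height x ^ 2 / c' * (2 * height x) * (CG * tailG S.a S.k ‖x‖) ∧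
      c' * (height x / 2) * (tailG S.a S.k ‖x‖ / CG) ≤ S.φu y := by
  have hq0 : 0 < q := by linarith
  refine gap_point S hc' hCG (by positivity) hz0 (tailG_pos _ _ hx1) hlow ?_ hy3 hy2 hu hd hy1
  refine hp.trans ?_
  have hzz : height x ^ 2 ≤ 4 * height y ^ 2 := by nlinarith
  have hA : 0 ≤ K₀ / q ^ 32 * S.G y ^ 2 := by positivity
  rw [show 4 * K₀ / q ^ 32 / height x ^ 2 * (height y * S.G y) ^ 2 =
    K₀ / q ^ 32 * S.G y ^ 2 * (4 * height y ^ 2 / height x ^ 2) by ring]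
  exact le_mul_of_one_le_right hA ((one_le_div (by positivity)).2 hzz)

/-- The volume of the doubled ball. -/
lemma volume_ball_two (x : Space) {s : ℝ} (hs : 0 ≤ s) :
    volume.real (ball x (2 * s)) = 8 * volume.real (ball (0 : Space) 1) * s ^ 3 := by
  rw [measureReal_def, Measure.addHaar_ball volume x (by positivity), finrank_euclideanSpace_fin,
    ENNReal.toReal_mul, ENNReal.toReal_ofReal (by positivity), measureReal_def]
  ring

/-- The potential on a ball from the defect and the excess. -/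
lemma abs_W_le (S : Setup) {x : Space} {s c ε' D I J IX : ℝ} (hs : 0 ≤ s)
    (hW : IntegrableOn S.W (ball x s)) (hX : IntegrableOn S.X (ball x (2 * s)))
    (hXW : ∀ᵐ y : Space, y ∈ ball x (2 * s) → 0 ≤ S.X y - S.W y)
    (hI : I = ∫ y in ball x (2 * s), |S.X y|) (hJd : J = ∫ y in ball x s, (S.X y - S.W y))
    (hJ : J ≤ c * (ε' * D)) (hIX : I ≤ IX) :
    ∫ y in ball x s, |S.W y| ≤ IX + c * (ε' * D) := by
  have hs12 : ball x s ⊆ ball x (2 * s) := ball_subset_ball (by linarith)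
  have hd : IntegrableOn (fun y => S.X y - S.W y) (ball x s) := (hX.mono_set hs12).sub hW
  calc ∫ y in ball x s, |S.W y|
      ≤ ∫ y in ball x s, (|S.X y| + (S.X y - S.W y)) := by
        refine setIntegral_mono_on_ae hW.abs ((hX.mono_set hs12).abs.add hd) measurableSet_ball ?_
        filter_upwards [hXW] with y hy hys
        have := hy (hs12 hys)
        rw [abs_le]
        constructor <;> linarith [le_abs_self (S.X y), neg_abs_le (S.X y)]
    _ = (∫ y in ball x s, |S.X y|) + J := by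
        rw [hJd]; exact integral_add (hX.mono_set hs12).abs hd
    _ ≤ _ := add_le_add ((setIntegral_mono_set hX.abs (Eventually.of_forall fun y => abs_nonneg _)
          hs12.eventuallyLE).trans (hI ▸ hIX)) hJ

/-- The excess on a ball from the budget identity. -/
lemma excess_ball (S : Setup) {L₁ : ℝ} (hL : ∀ (x : Space) (s : ℝ) (hs : 0 < s), ∀ y,
      |lap (fun z => (⟨s, 2 * s, hs, by linarith⟩ : ContDiffBump (0 : Space)) (z - x)) y| ≤
        L₁ / s ^ 2)
    {x : Space} {s m U : ℝ} (hs : 0 < s) (hst : s = min (height x) 1 / 32) (hz : 0 < height x)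
    (hR1 : S.R₁ + 4 ≤ ‖x‖) (hWi : IntegrableOn S.W (ball x s))
    (hX : IntegrableOn S.X (ball x (2 * s)))
    (hXW : ∀ᵐ y : Space, y ∈ ball x (2 * s) → 0 ≤ S.X y - S.W y) (hm : 0 ≤ m) (hU : 0 ≤ U)
    (hbd : ∀ y ∈ ball x (2 * s), 0 ≤ Real.sqrt (S.n y) - S.φu y ∧
      Real.sqrt (S.n y) - S.φu y ≤ U ∧ m ≤ S.φu y)
    (hn : ∀ y ∈ ball x (2 * s), 1 ≤ ‖y‖) :
    2 * m * ∫ y in ball x s, (S.X y - S.W y) ≤
      U * ((L₁ / s ^ 2 + 2 * (|S.a ^ 2 / 2| + |S.k|)) * volume.real (ball x (2 * s)) +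
        2 * ∫ y in ball x (2 * s), |S.X y|) := by
  let β : ContDiffBump (0 : Space) := ⟨s, 2 * s, hs, by linarith⟩
  obtain ⟨hζ0, hts, hζb⟩ := shift_bump S β (t := min (height x) 1) (x := x)
    (rfl : β.rOut = 2 * s) (by linarith) (lt_min hz one_pos) (min_le_right _ _) (min_le_left _ _) hR1
  obtain ⟨hi, heq⟩ := budget S _ hζb
  exact budget_ball S hs (fun y hy => β.one_of_mem_closedBall (by
      rw [mem_closedBall, dist_zero_right, ← dist_eq_norm]
      exact (mem_ball.1 hy).le))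
    (fun y => ⟨β.nonneg, β.le_one⟩) (hL x s hs) hζ0 hts hi heq hX
    ((hX.mono_set (ball_subset_ball (by linarith))).sub hWi) hXW hm hU hbd hn

/-- Above the band every ball has small average. -/
lemma mid_ball (hGr : GrowthStmt) (hGd : GroundStmt) (S : Setup) :
    ∃ K q₀ : ℝ, 0 ≤ K ∧ 1 ≤ q₀ ∧ ∀ q : ℝ, q₀ ≤ q → ∀ x : Space, q ^ 8 / 9 ≤ ‖x‖ →
      (q ^ 5)⁻¹ / 2 ≤ height x → height x ≤ 2 * q ^ 5 →
      IntegrableOn S.W (ball x (rad x)) ∧
        ∫ y in ball x (rad x), |S.W y| ≤ K / q ^ 12 * rad x ^ 3 := by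
  obtain ⟨c', Rb, hc', hb⟩ := bulkOne S
  obtain ⟨CG, hCG, hG⟩ := tailG_le S.data.a_pos S.k
  obtain ⟨K₀, q₁, hK₀, hq₁, hp⟩ := part_le hGr hGd S
  obtain ⟨L₁, hL₁, hL⟩ := scaled_bump
  obtain ⟨w, M, hw, -, hwM⟩ := setup_split S
  set M0 := |S.a ^ 2 / 2| + |S.k|
  set V1 := volume.real (ball (0 : Space) 1)
  set CX := |S.C| * 512 * (9 ^ 2 + 9 ^ 6 * 16) with hCX
  set B := 16 * max (max (|Rb|) (|S.R₁|)) (|S.R₀|) with hB
  refine ⟨CX + 4 * CG ^ 2 / c' ^ 2 *
      (((4 * 1024 * 20 * K₀ * L₁ + 32 * K₀ * M0) * (8 * V1) + 32 * K₀ * CX)),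
    max q₁ (4 + B + 16 * 18), by positivity, hq₁.trans (le_max_left _ _),
    fun q hq x hx hz1 hz2 => ?_⟩
  have hqa : q₁ ≤ q := (le_max_left _ _).trans hq
  have hqb : 4 + B + 16 * 18 ≤ q := (le_max_right _ _).trans hq
  have hB0 : 0 ≤ B := by rw [hB]; positivity
  have hB' : 16 * Rb ≤ B ∧ 16 * S.R₁ ≤ B ∧ 16 * S.R₀ ≤ B := by
    have := le_abs_self Rb
    have := le_abs_self S.R₁
    have := le_abs_self S.R₀
    have := le_max_left |Rb| |S.R₁|
    have := le_max_right |Rb| |S.R₁|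
    have := le_max_left (max |Rb| |S.R₁|) |S.R₀|
    have := le_max_right (max |Rb| |S.R₁|) |S.R₀|
    refine ⟨?_, ?_, ?_⟩ <;> linarith [hB]
  obtain ⟨hBb, hB1, hB2⟩ := hB'
  have hq1 : 1 ≤ q := hq₁.trans hqa
  have hq0 : 0 < q := by linarith
  have hq64 : 64 ≤ q := by linarith
  have hq8 : q ≤ q ^ 8 := le_self_pow₀ hq1 (by norm_num)
  have hz0 : 0 < height x := lt_of_lt_of_le (by positivity) hz1
  have hs : 0 < rad x := div_pos (lt_min hz0 one_pos) (by norm_num)
  have hs1 : rad x ≤ height x / 32 :=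
    div_le_div_of_nonneg_right (min_le_left _ _) (by norm_num)
  have hs2 : rad x ≤ 1 / 32 := div_le_div_of_nonneg_right (min_le_right _ _) (by norm_num)
  have hR01 : (1 : ℝ) ≤ S.R₀ := S.data.one_le
  have hx2 : 2 ≤ ‖x‖ := by linarith
  have hgeo : ∀ y ∈ ball x (2 * rad x), |‖x‖ - ‖y‖| ≤ 1 ∧ q ^ 8 / 16 ≤ ‖y‖ ∧
      height x / 2 ≤ height y ∧ height y ≤ 2 * height x := by
    intro y hy
    rw [mem_ball, dist_comm] at hy
    obtain ⟨h1, h2⟩ := norm_sub_dist_le x y
    have hh := abs_le.1 (abs_height_sub_le x y)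
    exact ⟨abs_le.2 ⟨by linarith, by linarith⟩, by linarith,
      by linarith [hh.2], by linarith [hh.1]⟩
  have hnorm1 : ∀ y ∈ ball x (2 * rad x), 1 ≤ ‖y‖ := fun y hy => by linarith [(hgeo y hy).2.1]
  obtain ⟨hXi, hIX⟩ := mid_defect S (by linarith) (by linarith) hx hz1
  obtain ⟨hWi2, -⟩ := S.integrableOn_W hw (fun y hy => (hwM y hy).2) measurableSet_ball
    measure_ball_lt_top hnorm1
  have hXW : ∀ᵐ y : Space, y ∈ ball x (2 * rad x) → 0 ≤ S.X y - S.W y := by
    filter_upwards [S.W_le_X] with y hy hm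
    have hf : y ∈ far S.R₁ := show S.R₁ < ‖y‖ by linarith [(hgeo y hm).2.1]
    linarith [hy hf]
  have hWi : IntegrableOn S.W (ball x (rad x)) :=
    hWi2.mono_set (ball_subset_ball (by linarith))
  refine ⟨hWi, ?_⟩
  set m := c' * (height x / 2) * (tailG S.a S.k ‖x‖ / CG) with hm
  set ε' := 4 * K₀ / q ^ 32 / height x ^ 2 with hεd
  set U := ε' / c' * (2 * height x) * (CG * tailG S.a S.k ‖x‖) with hU
  have hG0 : 0 < tailG S.a S.k ‖x‖ := tailG_pos _ _ (by linarith)
  have hm0 : 0 < m := by positivity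
  have hU0 : 0 ≤ U := by positivity
  have hbd : ∀ y ∈ ball x (2 * rad x), 0 ≤ Real.sqrt (S.n y) - S.φu y ∧
      Real.sqrt (S.n y) - S.φu y ≤ U ∧ m ≤ S.φu y := by
    intro y hy
    obtain ⟨hy1, hy2, hy3, hy4⟩ := hgeo y hy
    have hyn : 0 < ‖y‖ := by linarith
    refine mid_gap S hc' hCG hK₀ hq1 (hb y (by linarith) ?_)
      (hp q hqa y hy2 (abs_le.2 ⟨by linarith, by linarith⟩)) hz0 hy3 hy4
      (hG ‖x‖ ‖y‖ hx2 (by rwa [abs_sub_comm])) (hG ‖y‖ ‖x‖ (by linarith) hy1) hyn (by linarith)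
    refine le_trans ?_ hy3
    rw [one_div]
    refine (inv_anti₀ (by positivity) hy2).trans ?_
    have h3 : (64 : ℝ) ≤ q ^ 3 := hq64.trans (le_self_pow₀ hq1 (by norm_num))
    refine le_trans ?_ (div_le_div_of_nonneg_right hz1 zero_le_two)
    rw [inv_div, inv_eq_one_div (q ^ 5), div_div, div_div, div_le_div_iff₀ (by positivity)
      (by positivity)]
    nlinarith [mul_le_mul_of_nonneg_left h3 (by positivity : 0 ≤ q ^ 5)]
  have hb0 := excess_ball S hL hs rfl hz0 (by linarith) hWi hXi hXW hm0.le hU0 hbd hnorm1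
  rw [volume_ball_two x hs.le] at hb0
  set J := ∫ y in ball x (rad x), (S.X y - S.W y) with hJd
  set I := ∫ y in ball x (2 * rad x), |S.X y| with hId
  have hUm : U = 4 * CG ^ 2 / c' ^ 2 * ε' * m := by
    simp only [hU, hm]; field_simp; ring
  have hI0 : 0 ≤ I := integral_nonneg fun y => abs_nonneg _
  have hJ : J ≤ 4 * CG ^ 2 / c' ^ 2 *
      (ε' * ((L₁ / rad x ^ 2 + 2 * M0) * (8 * V1 * rad x ^ 3) + 2 * I)) := by
    rw [hUm] at hb0
    have h0 : 0 ≤ 4 * CG ^ 2 / c' ^ 2 *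
        (ε' * ((L₁ / rad x ^ 2 + 2 * M0) * (8 * V1 * rad x ^ 3) + 2 * I)) := by positivity
    refine le_of_mul_le_mul_left (hb0.trans ?_) (mul_pos two_pos hm0)
    nlinarith [mul_nonneg hm0.le h0]
  refine (abs_W_le S hs.le hWi hXi hXW hId hJd hJ hIX).trans
    ((add_le_add le_rfl (mul_le_mul_of_nonneg_left
      (mid_arith (s := rad x) hK₀ hL₁ (by positivity) measureReal_nonneg hq1 hz1 rfl hI0 hIX)
      (by positivity))).trans_eq ?_)
  ring

/-- The potential has little mass near the plane. -/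
theorem wMass_of (hGr : GrowthStmt) (hGd : GroundStmt) : WMassStmt := by
  intro S
  obtain ⟨K, q₀, hK, hq₀, hmid⟩ := mid_ball hGr hGd S
  obtain ⟨w, M, hw, hM, hwM⟩ := setup_split S
  set V1 := volume.real (ball (0 : Space) 1)
  have hV1 : 0 < V1 :=
    ENNReal.toReal_pos (measure_ball_pos volume 0 one_pos).ne' measure_ball_lt_top.ne
  set Vb : ℝ := 8 * 81 * 2
  set Cm : ℝ := 64 * (K / V1) * 2400
  refine ⟨1 / 8, ringNorm w * (Vb + 1) + M * Vb + 2 * Cm, (max q₀ 16) ^ 8, by norm_num,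
    fun R hR => ?_⟩
  have hb0 : 0 ≤ max q₀ 16 := le_max_of_le_right (by norm_num)
  have hR0 : 0 < R := lt_of_lt_of_le (pow_pos (lt_max_of_lt_right (by norm_num)) 8) hR
  set q := R ^ (1 / 8 : ℝ) with hqd
  have hpow : ∀ n : ℕ, q ^ n = R ^ ((n : ℝ) / 8) := fun n => by
    rw [hqd, ← Real.rpow_natCast (R ^ _) n, ← Real.rpow_mul hR0.le]; congr 1; ring
  have hq8 : q ^ 8 = R := by rw [hpow]; norm_num
  have hqb : max q₀ 16 ≤ q := by
    have h := Real.rpow_le_rpow (by positivity) hR (by norm_num : (0 : ℝ) ≤ 1 / 8)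
    rwa [← Real.rpow_natCast, ← Real.rpow_mul hb0, show ((8 : ℕ) : ℝ) * (1 / 8) = 1 by norm_num,
      Real.rpow_one] at h
  have hqa : q₀ ≤ q := (le_max_left _ _).trans hqb
  have hq16 : 16 ≤ q := (le_max_right _ _).trans hqb
  have hq1 : 1 ≤ q := by linarith
  have hq0 : 0 < q := by linarith
  have hq88 : q ≤ q ^ 8 := le_self_pow₀ hq1 (by norm_num)
  rw [show R ^ (3 / 2 - 1 / 8 : ℝ) = q ^ 11 by rw [hpow]; norm_num, zone,
    show R ^ (5 / 8 : ℝ) = q ^ 5 by rw [hpow]; norm_num, ← hq8]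
  set Z := {x : Space | q ^ 8 / 8 ≤ ‖x‖ ∧ ‖x‖ ≤ 8 * q ^ 8 ∧ |height x| ≤ q ^ 5}
  have hhc := continuous_height
  have hZm : MeasurableSet Z :=
    ((isClosed_le continuous_const continuous_norm).inter
      ((isClosed_le continuous_norm continuous_const).inter
        (isClosed_le hhc.abs continuous_const))).measurableSet
  have hZb : Z ⊆ ball 0 (9 * q ^ 8) := fun y hy => mem_ball_zero_iff.2 (by linarith [hy.2.1])
  have hZfin : volume Z < ⊤ := (measure_mono hZb).trans_lt measure_ball_lt_top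
  have hZ1 : ∀ y ∈ Z, 1 ≤ ‖y‖ := fun y hy => by linarith [hy.1]
  obtain ⟨hWi, -⟩ := S.integrableOn_W hw (fun y hy => (hwM y hy).2) hZm hZfin hZ1
  refine ⟨hWi, ?_⟩
  set t := (q ^ 5)⁻¹ with htd
  have ht : 0 < t := by positivity
  set A := Z ∩ {y | |height y| < t}
  set U := Z ∩ {y | t ≤ height y}
  set D := Z ∩ {y | height y ≤ -t}
  have hA : MeasurableSet A :=
    hZm.inter (measurableSet_lt hhc.abs.measurable measurable_const)
  have hU : MeasurableSet U := hZm.inter (measurableSet_le measurable_const hhc.measurable)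
  have hD : MeasurableSet D := hZm.inter (measurableSet_le hhc.measurable measurable_const)
  have hband : ∫ y in A, |S.W y| ≤ (ringNorm w * (Vb + 1) + M * Vb) * q ^ 11 := by
    have hfin : volume A < ⊤ := (measure_mono inter_subset_left).trans_lt hZfin
    obtain ⟨-, hle⟩ := S.integrableOn_W hw (fun y hy => (hwM y hy).2) hA hfin fun y hy => hZ1 y hy.1
    have hvol : volume.real A ≤ Vb * q ^ 11 := by
      refine (measureReal_mono (Set.inter_subset_inter_left _ hZb)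
        ((measure_mono Set.inter_subset_left).trans_lt measure_ball_lt_top).ne).trans
        ((slab_volume_le 0 (by positivity) ht.le).trans ?_)
      have e : 8 * (9 * q ^ 8) ^ 2 * t = 648 * q ^ 11 := by
        simp only [htd]; field_simp; ring
      rw [e]
      simp only [Vb]
      nlinarith [pow_pos hq0 11]
    have h3 : volume.real A ^ (1 / 3 : ℝ) ≤ (Vb + 1) * q ^ 11 := by
      have hv := measureReal_nonneg (μ := (volume : Measure Space)) (s := A)
      rcases le_total (volume.real A) 1 with h | h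
      · refine (Real.rpow_le_one hv h (by norm_num)).trans ?_
        nlinarith [one_le_pow₀ (n := 11) hq1, show (0 : ℝ) ≤ Vb by norm_num [Vb]]
      · refine ((Real.rpow_le_self_of_one_le h (by norm_num)).trans hvol).trans ?_
        nlinarith [pow_pos hq0 11]
    refine hle.trans ((add_le_add (((ring_set hw hfin).2).trans
      (mul_le_mul_of_nonneg_left h3 (ringNorm_nonneg w)))
      (mul_le_mul_of_nonneg_left hvol hM)).trans_eq ?_)
    ring
  set A' := {x : Space | q ^ 8 / 9 ≤ ‖x‖ ∧ ‖x‖ ≤ 9 * q ^ 8 ∧ t / 2 ≤ height x ∧ height x ≤ 2 * q ^ 5}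
  have hup : ∫ y in U, |S.W y| ≤ Cm * q ^ 11 := by
    have hUi : IntegrableOn (fun y => |S.W y|) U := (hWi.mono_set inter_subset_left).abs
    have hcov := cover_le (f := fun y => ENNReal.ofReal |S.W y|)
      S.measurable_W.abs.ennreal_ofReal hU continuous_rad rad_lip
      (fun y hy => by
        have : t ≤ height y := hy.2
        exact div_pos (lt_min (by linarith) one_pos) (by norm_num))
      (A' := A') (fun y hy x hx => by
        obtain ⟨⟨h1, h2, h3⟩, h4⟩ := hy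
        replace h4 : t ≤ height y := h4
        rw [mem_ball] at hx
        have hr1 : rad y ≤ height y / 32 := div_le_div_of_nonneg_right (min_le_left _ _) (by norm_num)
        have hr2 : rad y ≤ 1 / 32 := div_le_div_of_nonneg_right (min_le_right _ _) (by norm_num)
        have hh := abs_le.1 (abs_height_sub_le x y)
        obtain ⟨n1, n2⟩ := norm_sub_dist_le y x
        rw [dist_comm] at n1 n2
        have := abs_le.1 h3
        exact ⟨by linarith, by linarith, by linarith, by linarith⟩)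
      (K := ENNReal.ofReal (K / q ^ 12 / V1)) fun x hx => by
        obtain ⟨hi, hle⟩ := hmid q hqa x hx.1 hx.2.2.1 hx.2.2.2
        rw [← ofReal_integral_eq_lintegral_ofReal hi.abs (Eventually.of_forall fun y => abs_nonneg _),
          ← ofReal_measureReal measure_ball_lt_top.ne, ← ENNReal.ofReal_mul (by positivity)]
        refine ENNReal.ofReal_le_ofReal (hle.trans_eq ?_)
        have hr : 0 ≤ rad x :=
          div_nonneg (le_min (le_trans (by positivity) hx.2.2.1) zero_le_one) (by norm_num)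
        rw [measureReal_def, Measure.addHaar_ball volume x hr, finrank_euclideanSpace_fin,
          ENNReal.toReal_mul, ENNReal.toReal_ofReal (by positivity)]
        have hV1' : (volume (ball (0 : Space) 1)).toReal ≠ 0 := hV1.ne'
        simp only [V1, measureReal_def]
        field_simp
    have hA'b : A' ⊆ ball 0 (10 * q ^ 8) ∩ {y | |height y| < 3 * q ^ 5} := by
      rintro x ⟨-, a2, a3, a4⟩
      have h8 := pow_pos hq0 8
      have h5 := pow_pos hq0 5
      refine ⟨mem_ball_zero_iff.2 (by linarith), ?_⟩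
      show |height x| < 3 * q ^ 5
      exact abs_lt.2 ⟨by linarith, by linarith⟩
    have hA'fin : volume A' < ⊤ :=
      (measure_mono (hA'b.trans Set.inter_subset_left)).trans_lt measure_ball_lt_top
    have hvol : volume.real A' ≤ 2400 * q ^ 21 := by
      refine (measureReal_mono hA'b
        ((measure_mono Set.inter_subset_left).trans_lt measure_ball_lt_top).ne).trans
        ((slab_volume_le 0 (by positivity) (by positivity)).trans_eq ?_)
      ring
    rw [← ofReal_integral_eq_lintegral_ofReal hUi (Eventually.of_forall fun y => abs_nonneg _),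
      ← ofReal_measureReal hA'fin.ne, ← ENNReal.ofReal_mul (by positivity),
      show (64 : ℝ≥0∞) = ENNReal.ofReal 64 by simp, ← ENNReal.ofReal_mul (by norm_num),
      ENNReal.ofReal_le_ofReal_iff (by positivity)] at hcov
    refine hcov.trans ((mul_le_mul_of_nonneg_left (mul_le_mul_of_nonneg_left hvol (by positivity))
      (by norm_num : (0 : ℝ) ≤ 64)).trans ?_)
    have e : 64 * (K / q ^ 12 / V1 * (2400 * q ^ 21)) = Cm * q ^ 9 := by
      simp only [Cm]; field_simp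
    rw [e]
    exact mul_le_mul_of_nonneg_left (pow_le_pow_right₀ hq1 (by norm_num)) (by positivity)
  have hdown : ∫ y in D, |S.W y| ≤ Cm * q ^ 11 := by
    set e := axIso true 0
    have he : ∀ y, e y = mirror y := fun y => by simp [e, axMap, rot_zero_angle]
    have hpre : e ⁻¹' D = U := by
      ext y
      have hn : ‖mirror y‖ = ‖y‖ := by rw [← he, e.norm_map]
      simp only [D, U, Z, Set.mem_preimage, Set.mem_inter_iff, Set.mem_ofPred_eq, he, height_mirror,
        hn, abs_neg, neg_le_neg_iff]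
    rw [← e.measurePreserving.setIntegral_preimage_emb e.toHomeomorph.measurableEmbedding
      (fun y => |S.W y|) D, hpre]
    simp only [he, S.W_mirror]
    exact hup
  have htot := setIntegral_le_sum (Finset.univ : Finset (Fin 3)) (B := ![A, U, D]) hZm
      (fun i _ => by fin_cases i <;> assumption) (fun y => abs_nonneg (S.W y))
      (fun i _ => by
        refine IntegrableOn.mono_set hWi.abs ?_
        fin_cases i <;> exact Set.inter_subset_left)
      (fun y hy => by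
        rcases lt_or_ge (|height y|) t with h | h
        · exact mem_iUnion₂.2 ⟨0, Finset.mem_univ _, hy, h⟩
        rcases le_abs.1 h with h | h
        · exact mem_iUnion₂.2 ⟨1, Finset.mem_univ _, hy, h⟩
        · exact mem_iUnion₂.2 ⟨2, Finset.mem_univ _, hy, (by linarith : height y ≤ -t)⟩)
  simp only [Fin.sum_univ_three, Matrix.cons_val_zero, Matrix.cons_val_one, Matrix.cons_val] at htot
  linarith

end Vale.Agent.P363.Ext.Asymp
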