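import Vale.Agent.P363.Ext.Asymp.Follow
import Vale.Agent.P363.Ext.Asymp.Limit
import Vale.Agent.P363.Ext.Asymp.Rate
import Vale.Agent.P363.Ext.Asymp.WMass

/-!
P363, Kohn-Sham side: `ProfileAsympStmt` from the growth step and the decay of the ground orbital.
-/

noncomputable section

namespace Vale.Agent.P363.Ext.Asymp

/-- The asymptotics of the profiles. -/
theorem profileAsymp_of_steps (hGr : GrowthStmt) (hGd : GroundStmt) (hJ : Growth.JumpEstStmt)
    (hO : Growth.OscStmt) : ProfileAsympStmt :=
  profileAsymp_of (dataBound_of hGr) (rate_of hGr (wMass_of hGr hGd)) (follow_of hGr hJ hO)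

end Vale.Agent.P363.Ext.Asymp
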