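import Vale.Agent.P363.Ext.Asymp.Spec
import Vale.Agent.P363.Ext.Growth.Basic
import Vale.Agent.P363.Ext.Heat.Jump
import Vale.Agent.P363.Ext.Polar.Half

/-!
P363, asymptotics of the profiles: the bound of degree eight in `(τ, θ)`, the cut-offs, and the
size of the late data.
-/

noncomputable section

namespace Vale.Agent.P363.Ext.Asymp

open MeasureTheory Filter Set
open scoped BigOperators Topology

/-- `GrowthStmt` in the variables `(τ, θ)`. -/
theorem tred_bound (hGr : GrowthStmt) (S : Setup) :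
    ∃ K δ τ₀ : ℝ, 0 ≤ K ∧ 0 < δ ∧ δ ≤ 1 / 4 ∧ 0 < τ₀ ∧ τ₀ ≤ 1 ∧ S.R₁ * τ₀ < 1 ∧
      ∀ (ν : ℝ) (f : Space → ℝ), Profile S ν f → ∀ τ θ : ℝ, 0 < τ → τ ≤ τ₀ → |θ| ≤ δ →
        |Growth.tred S f τ θ| ≤ K * (Real.sqrt τ + |θ|) ^ 8 := by
  obtain ⟨B, δ₀, R, hδ₀, hB⟩ := hGr S
  set R' := max R (S.R₁ + 1) with hR'
  have hR1 : 1 ≤ S.R₁ := Growth.one_le_R₁ S
  have hR'1 : S.R₁ + 1 ≤ R' := le_max_right _ _
  refine ⟨Real.sqrt |B|, min δ₀ (1 / 4), R'⁻¹, Real.sqrt_nonneg _, lt_min hδ₀ (by norm_num),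
    min_le_right _ _, inv_pos.2 (by linarith), inv_le_one_of_one_le₀ (by linarith), ?_, ?_⟩
  · rw [← div_eq_mul_inv, div_lt_one (by linarith)]
    linarith
  intro ν f hf τ θ hτ hτ0 hθ
  have hθ4 : |θ| ≤ 1 / 4 := hθ.trans (min_le_right _ _)
  obtain ⟨h1, h2, h3⟩ := Growth.pt_inv hτ (show |θ| ≤ 1 by linarith)
  set x := pt τ⁻¹ θ with hx
  have hτi : 0 < τ⁻¹ := inv_pos.2 hτ
  have hr : R' ≤ τ⁻¹ := by rw [le_inv_comm₀ (by linarith) hτ]; exact hτ0
  have hbelt : x ∈ belt S.R₁ := by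
    refine ⟨by rw [h1]; linarith, ?_⟩
    rw [h1, h2, abs_mul, abs_of_pos hτi]
    nlinarith
  have hb := hB x (by rw [h1]; exact (le_max_left _ _).trans hr) (by
    rw [h1, h2, abs_mul, abs_of_pos hτi, mul_comm]
    exact mul_le_mul_of_nonneg_right (hθ.trans (min_le_left _ _)) hτi.le)
  have hsx : |height x| / Real.sqrt ‖x‖ = |θ| / Real.sqrt τ := by
    rw [h1, h2, abs_mul, abs_of_pos hτi, Real.sqrt_inv]
    have hs := Real.sqrt_pos.2 hτ
    field_simp
    rw [Real.sq_sqrt hτ.le]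
    ring
  rw [hsx, h1] at hb
  set G := S.G x
  set P := (τ⁻¹ ^ 3)⁻¹ * (1 + |θ| / Real.sqrt τ) ^ 8 * G with hP
  have hG : 0 < G := tailG_pos _ _ (by rw [h1]; exact hτi)
  have hP0 : 0 ≤ P := by rw [hP]; positivity
  have hf' : |f x| ≤ Real.sqrt |B| * P := by
    refine (hf.abs_le hbelt).trans ?_
    rw [← Real.sqrt_sq hP0, ← Real.sqrt_mul (abs_nonneg _)]
    exact Real.sqrt_le_sqrt (hb.trans (mul_le_mul_of_nonneg_right (le_abs_self B) (sq_nonneg _)))
  have hGe : tailG S.a S.k τ⁻¹ = G := by rw [show G = S.G x from rfl, Setup.G, h1]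
  rw [Growth.tred, red, ← hx, hGe, abs_div, abs_of_pos (mul_pos hτi hG),
    div_le_iff₀ (mul_pos hτi hG)]
  refine hf'.trans (le_of_eq ?_)
  have hs := Real.sqrt_pos.2 hτ
  have e : (Real.sqrt τ + |θ|) ^ 8 = τ ^ 4 * (1 + |θ| / Real.sqrt τ) ^ 8 := by
    rw [show τ ^ 4 = Real.sqrt τ ^ 8 by rw [show 8 = 2 * 4 from rfl, pow_mul, Real.sq_sqrt hτ.le],
      ← mul_pow]
    congr 1
    field_simp
  rw [e, hP]
  field_simp

lemma contDiff_downT (T : ℝ) {n : ℕ∞} : ContDiff ℝ n (Growth.downT T) := by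
  unfold Growth.downT
  exact Real.smoothTransition.contDiff.comp (by fun_prop)

lemma deriv_downT (T τ : ℝ) :
    deriv (Growth.downT T) τ = -(deriv Real.smoothTransition (2 - τ / T) / T) := by
  have h := (((Real.smoothTransition.contDiff (n := 1)).differentiable one_ne_zero).differentiableAt
    (x := 2 - τ / T)).hasDerivAt.comp τ (((hasDerivAt_id' τ).div_const T).const_sub 2)
  rw [show Growth.downT T = Real.smoothTransition ∘ fun y => 2 - y / T from rfl, h.deriv]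
  ring

lemma deriv_downT_zero {T τ : ℝ} (hT : 0 < T) (h : τ ∉ Icc T (2 * T)) :
    deriv (Growth.downT T) τ = 0 := by
  rw [deriv_downT]
  have := deriv_step_off (t := 2 - τ / T) fun hm => h ⟨by
    have := (le_div_iff₀ hT).1 (show (1 : ℝ) ≤ τ / T by linarith [hm.2]); linarith, by
    have := (div_le_iff₀ hT).1 (show τ / T ≤ 2 by linarith [hm.1]); linarith⟩
  rw [show deriv Real.smoothTransition = deriv step from rfl, this, zero_div, neg_zero]

lemma deriv_downT_bound :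
    ∃ M : ℝ, 0 ≤ M ∧ ∀ T τ : ℝ, 0 < T → |deriv (Growth.downT T) τ| ≤ M / T := by
  obtain ⟨M, hM⟩ := continuous_deriv_step.bounded_above_of_compact_support
    (HasCompactSupport.intro isCompact_Icc fun t ht => deriv_step_off ht)
  refine ⟨M, (norm_nonneg _).trans (hM 0), fun T τ hT => ?_⟩
  rw [deriv_downT, abs_neg, abs_div, abs_of_pos hT]
  exact div_le_div_of_nonneg_right (hM _) hT.le

lemma contDiff_cutθ (δ : ℝ) {n : ℕ∞} : ContDiff ℝ n (Growth.cutθ δ) := by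
  unfold Growth.cutθ
  exact Real.smoothTransition.contDiff.comp (by fun_prop)

lemma abs_cutθ_le (δ θ : ℝ) : |Growth.cutθ δ θ| ≤ 1 := by
  rw [Growth.cutθ, abs_of_nonneg (Real.smoothTransition.nonneg _)]
  exact Real.smoothTransition.le_one _

lemma cutθ_zero {δ θ : ℝ} (hδ : 0 < δ) (h : δ ≤ |θ|) : Growth.cutθ δ θ = 0 := by
  refine Real.smoothTransition.zero_of_nonpos ?_
  have : 1 ≤ (θ / δ) ^ 2 := by
    rw [← sq_abs, abs_div, abs_of_pos hδ]
    exact one_le_pow₀ ((one_le_div hδ).2 h)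
  nlinarith

lemma cutθ_one {δ θ : ℝ} (hδ : 0 < δ) (h : |θ| ≤ δ / 2) : Growth.cutθ δ θ = 1 := by
  refine Real.smoothTransition.one_of_one_le ?_
  have : (θ / δ) ^ 2 ≤ (1 / 2) ^ 2 := by
    rw [← sq_abs, abs_div, abs_of_pos hδ]
    exact pow_le_pow_left₀ (by positivity) (by rw [div_le_iff₀ hδ]; linarith) 2
  nlinarith

lemma cutθ_even (δ θ : ℝ) : Growth.cutθ δ (-θ) = Growth.cutθ δ θ := by
  simp [Growth.cutθ, neg_div]

lemma tred_even {S : Setup} {ν : ℝ} {f : Space → ℝ} (hf : Profile S ν f) (τ θ : ℝ) :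
    Growth.tred S f τ (-θ) = Growth.tred S f τ θ := by
  have e : mirror (pt τ⁻¹ θ) = pt τ⁻¹ (-θ) := by
    ext i
    fin_cases i <;> simp [mirror, height, pt, unit3]; ring
  rw [Growth.tred, Growth.tred, red, red, ← e, hf.axial.2]

/-- The support of late data. -/
lemma late_supp {S : Setup} {f : Space → ℝ} {T δ : ℝ} (hT : 0 < T) (hδ : 0 < δ) (p : ℝ × ℝ)
    (hp : Growth.late S f δ T p ≠ 0) : p.1 ∈ Icc T (2 * T) ∧ |p.2| ≤ δ := by
  by_contra hn
  apply hp
  rcases not_and_or.1 hn with h | h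
  · simp only [Growth.late, deriv_downT_zero hT h, neg_zero, zero_mul]
  · simp only [Growth.late, cutθ_zero hδ (not_le.1 h).le, mul_zero, zero_mul]

/-- Late data are continuous. -/
lemma continuous_late {S : Setup} {ν : ℝ} {f : Space → ℝ} (hf : Profile S ν f) {T δ δ₀ τ₀ : ℝ}
    (hT : 0 < T) (hδ : 0 < δ) (hδle : δ ≤ δ₀) (hδ4 : δ₀ ≤ 1 / 4) (hT0 : 2 * T < τ₀)
    (hτR : S.R₁ * τ₀ < 1) : Continuous (Growth.late S f δ T) := by
  set g := Growth.late S f δ T
  have hsupp : ∀ p : ℝ × ℝ, g p ≠ 0 → p.1 ∈ Icc T (2 * T) ∧ |p.2| ≤ δ := late_supp hT hδ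
  set V : Set (ℝ × ℝ) := Ioo 0 S.R₁⁻¹ ×ˢ Ioo (-(1 / 2)) (1 / 2)
  have hR1 := Growth.one_le_R₁ S
  have hV : IsOpen V := isOpen_Ioo.prod isOpen_Ioo
  have hC : IsCompact (Icc T (2 * T) ×ˢ Icc (-δ) δ) := isCompact_Icc.prod isCompact_Icc
  have hCV : Icc T (2 * T) ×ˢ Icc (-δ) δ ⊆ V := fun p hp => by
    refine ⟨⟨hT.trans_le hp.1.1, ?_⟩, ?_, ?_⟩
    · calc p.1 ≤ 2 * T := hp.1.2
        _ < τ₀ := by linarith
        _ ≤ S.R₁⁻¹ := by rw [inv_eq_one_div, le_div_iff₀ (by linarith)]; linarith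
    · linarith [hp.2.1]
    · linarith [hp.2.2]
  have hon : ContinuousOn g V :=
    (((((contDiff_downT (n := 1) T).continuous_deriv le_rfl).comp continuous_fst).neg).mul
      ((contDiff_cutθ (n := 0) δ).continuous.comp continuous_snd)).continuousOn.mul
      (Heat.continuousOn_red hR1 hf.continuousOn)
  refine continuous_iff_continuousAt.2 fun p => ?_
  by_cases hp : p ∈ Icc T (2 * T) ×ˢ Icc (-δ) δ
  · exact hon.continuousAt (hV.mem_nhds (hCV hp))
  · refine (continuousAt_const (y := (0 : ℝ))).congr (Filter.mem_of_superset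
      (hC.isClosed.isOpen_compl.mem_nhds hp) fun q hq => ?_)
    by_contra hne
    obtain ⟨a1, a2⟩ := hsupp q (Ne.symm hne)
    exact hq ⟨a1, (abs_le.1 a2).1, (abs_le.1 a2).2⟩

/-- Weighted time-space integrals over a slab. -/
lemma integral_slab {T : ℝ} (hT : 0 < T) :
    (Integrable fun p : ℝ × ℝ =>
        (Icc T (2 * T)).indicator (fun _ => (1 : ℝ)) p.1 * (1 + (p.2 / Real.sqrt T) ^ 2)⁻¹) ∧
      ∫ p : ℝ × ℝ, (Icc T (2 * T)).indicator (fun _ => (1 : ℝ)) p.1 *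
        (1 + (p.2 / Real.sqrt T) ^ 2)⁻¹ = T * (Real.sqrt T * Real.pi) := by
  have hs := Real.sqrt_pos.2 hT
  have h1 : Integrable fun θ : ℝ => (1 + (θ / Real.sqrt T) ^ 2)⁻¹ :=
    integrable_inv_one_add_sq.comp_div hs.ne'
  have h0 : Integrable fun τ : ℝ => (Icc T (2 * T)).indicator (fun _ => (1 : ℝ)) τ :=
    (integrable_indicator_iff measurableSet_Icc).2
      (integrableOn_const measure_Icc_lt_top.ne)
  refine ⟨h0.mul_prod h1, ?_⟩
  rw [Measure.volume_eq_prod, integral_prod_mul ((Icc T (2 * T)).indicator fun _ => (1 : ℝ))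
    (fun θ : ℝ => (1 + (θ / Real.sqrt T) ^ 2)⁻¹), integral_indicator measurableSet_Icc,
    setIntegral_const, Measure.integral_comp_div (fun θ : ℝ => (1 + θ ^ 2)⁻¹),
    integral_univ_inv_one_add_sq, abs_of_pos hs]
  simp [measureReal_def, Real.volume_Icc, show 2 * T - T = T by ring, hT.le]

/-- Late data of profiles have the size of degree eight. -/
theorem dataBound_of (hGr : GrowthStmt) : DataBoundStmt := by
  intro S
  obtain ⟨K, δ₀, τ₀, hK, hδ₀, hδ4, hτ₀, hτ1, hτR, hb⟩ := tred_bound hGr S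
  obtain ⟨M, hM0, hM⟩ := deriv_downT_bound
  refine ⟨δ₀, M * (K * 2 ^ 8) * Real.pi, τ₀ / 4, hδ₀, by linarith,
    fun δ hδ hδle ν f hf T hT hT0 => ?_⟩
  have heven : ∀ τ θ, Growth.late S f δ T (τ, -θ) = Growth.late S f δ T (τ, θ) := fun τ θ => by
    simp only [Growth.late, cutθ_even, tred_even hf]
  refine ⟨?_, heven⟩
  set g := Growth.late S f δ T
  have hs := Real.sqrt_pos.2 hT
  have hsupp : ∀ p : ℝ × ℝ, g p ≠ 0 → p.1 ∈ Icc T (2 * T) ∧ |p.2| ≤ δ := late_supp hT hδ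
  have hcont : Continuous g :=
    continuous_late hf hT hδ hδle hδ4 (by linarith) hτR
  obtain ⟨hI, hIe⟩ := integral_slab hT
  set C := M / T * (K * 2 ^ 8 * T ^ 4) with hCdef
  have hpt : ∀ p : ℝ × ℝ, |g p| / (1 + |p.2| / Real.sqrt T) ^ 10 ≤
      C * ((Icc T (2 * T)).indicator (fun _ => (1 : ℝ)) p.1 *
        (1 + (p.2 / Real.sqrt T) ^ 2)⁻¹) := fun p => by
    set u := |p.2| / Real.sqrt T with hu
    have hu0 : 0 ≤ u := by positivity
    rcases eq_or_ne (g p) 0 with h0 | h0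
    · rw [h0, abs_zero, zero_div]
      exact mul_nonneg (by positivity)
        (mul_nonneg (indicator_nonneg (fun _ _ => zero_le_one) _) (by positivity))
    obtain ⟨hp1, hp2⟩ := hsupp p h0
    have hp0 : 0 < p.1 := hT.trans_le hp1.1
    have hred := hb ν f hf p.1 p.2 hp0 (by linarith [hp1.2]) (hp2.trans hδle)
    have hsum : Real.sqrt p.1 + |p.2| ≤ 2 * Real.sqrt T * (1 + u) := by
      have h1 : Real.sqrt p.1 ≤ 2 * Real.sqrt T := by
        rw [← Real.sqrt_sq (show (0 : ℝ) ≤ 2 by norm_num), ← Real.sqrt_mul (by norm_num)]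
        exact Real.sqrt_le_sqrt (by linarith [hp1.2])
      have h2 : |p.2| = u * Real.sqrt T := by rw [hu]; field_simp
      nlinarith
    have hpow : (Real.sqrt p.1 + |p.2|) ^ 8 ≤ 2 ^ 8 * T ^ 4 * (1 + u) ^ 8 := by
      refine (pow_le_pow_left₀ (by positivity) hsum 8).trans (le_of_eq ?_)
      rw [mul_pow, mul_pow, show Real.sqrt T ^ 8 = T ^ 4 by
        rw [show 8 = 2 * 4 from rfl, pow_mul, Real.sq_sqrt hT.le]]
    have hg : |g p| ≤ C * (1 + u) ^ 8 := by
      calc |g p| = |deriv (Growth.downT T) p.1| * |Growth.cutθ δ p.2| *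
            |Growth.tred S f p.1 p.2| := by
            simp only [g, Growth.late, abs_mul, abs_neg]
        _ ≤ M / T * 1 * (K * (2 ^ 8 * T ^ 4 * (1 + u) ^ 8)) := by
            have hMT : 0 ≤ M / T := by positivity
            gcongr
            · exact hM T p.1 hT
            · exact abs_cutθ_le _ _
            · exact hred.trans (mul_le_mul_of_nonneg_left hpow hK)
        _ = _ := by rw [hCdef]; ring
    rw [indicator_of_mem hp1, one_mul, div_le_iff₀ (by positivity)]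
    refine hg.trans ?_
    have e : (p.2 / Real.sqrt T) ^ 2 = u ^ 2 := by rw [hu, div_pow, div_pow, sq_abs]
    rw [e, mul_assoc C]
    apply mul_le_mul_of_nonneg_left ?_ (show 0 ≤ C by rw [hCdef]; positivity)
    rw [← div_eq_inv_mul, le_div_iff₀ (by positivity)]
    have h8 : (0 : ℝ) ≤ (1 + u) ^ 8 := by positivity
    nlinarith [mul_le_mul_of_nonneg_left (show 1 + u ^ 2 ≤ (1 + u) ^ 2 by nlinarith) h8]
  have hmeas : AEStronglyMeasurable fun p : ℝ × ℝ => g p / (1 + |p.2| / Real.sqrt T) ^ 10 :=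
    (hcont.div (by fun_prop) fun p => by positivity).aestronglyMeasurable
  refine ⟨hT, (hI.const_mul C).mono' hmeas (Eventually.of_forall fun p => ?_),
    fun p hp => (hsupp p hp).1, ?_⟩
  · rw [Real.norm_eq_abs, abs_div, abs_of_pos (by positivity : 0 < (1 + |p.2| / Real.sqrt T) ^ 10)]
    exact hpt p
  · refine (integral_mono_of_nonneg (Eventually.of_forall fun p => by positivity)
      (hI.const_mul C) (Eventually.of_forall hpt)).trans (le_of_eq ?_)
    rw [integral_const_mul, hIe, hCdef]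
    field_simp

end Vale.Agent.P363.Ext.Asymp
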