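import Vale.Agent.P363.Ext.Asymp.Data
import Vale.Agent.P363.Ext.Growth.JumpBox
import Vale.Agent.P363.Ext.Heat.Avg

/-!
P363, asymptotics of the profiles: profiles follow the heat average of their late data, from the
jump estimate and the oscillation estimate of the growth step at `η = 0`.
-/

noncomputable section

namespace Vale.Agent.P363.Ext.Asymp

open MeasureTheory Filter Set
open scoped BigOperators Topology
open Growth (tred late box)

/-- The bound of degree eight is a level of the growth step. -/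
lemma level_of_bound {S : Setup} {K δ τ₀ R : ℝ} (hK : 0 ≤ K) (hτ₀ : 0 < τ₀)
    (hR : τ₀⁻¹ ≤ R)
    (hb : ∀ (ν : ℝ) (f : Space → ℝ), Profile S ν f → ∀ τ θ : ℝ, 0 < τ → τ ≤ τ₀ → |θ| ≤ δ →
      |tred S f τ θ| ≤ K * (Real.sqrt τ + |θ|) ^ 8) :
    Growth.Level S δ R (256 * K) (256 * K) 0 := by
  intro ν f hf x hxR hxh
  have hx : 0 < ‖x‖ := lt_of_lt_of_le (inv_pos.2 hτ₀) (hR.trans hxR)
  have hG : 0 < S.G x := tailG_pos _ _ hx
  rw [Growth.eq_mul_tred hf.axial hx, abs_mul, abs_of_pos (mul_pos hx hG)]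
  refine mul_le_mul_of_nonneg_left ?_ (mul_pos hx hG).le
  set τ := ‖x‖⁻¹
  set θ := height x / ‖x‖
  have hτ : 0 < τ := inv_pos.2 hx
  have hθ : |θ| ≤ δ := by rw [abs_div, abs_norm, div_le_iff₀ hx]; exact hxh
  refine (hb ν f hf τ θ hτ (inv_le_of_inv_le₀ hτ₀ (hR.trans hxR)) hθ).trans ?_
  set a := Real.sqrt τ
  set b := |θ|
  have ha : 0 ≤ a := Real.sqrt_nonneg _
  have hb0 : 0 ≤ b := abs_nonneg _
  have ha8 : a ^ 8 = τ ^ 4 := by rw [show 8 = 2 * 4 from rfl, pow_mul, Real.sq_sqrt hτ.le]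
  have hlin : b ^ 8 ≤ Growth.lin 0 τ θ := by
    rw [Growth.lin, add_zero, pow_succ']
    exact mul_le_mul (le_add_of_nonneg_right (sq_nonneg _))
      (pow_le_pow_left₀ hb0 (le_add_of_nonneg_left ha) 7) (by positivity) (by positivity)
  have h8 : (a + b) ^ 8 ≤ 256 * (a ^ 8 + b ^ 8) := by
    have h := add_pow_le ha hb0 8
    norm_num at h
    nlinarith [pow_nonneg ha 8, pow_nonneg hb0 8]
  have := mul_le_mul_of_nonneg_left hlin (show 0 ≤ 256 * K by positivity)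
  rw [Growth.bd, ← ha8]
  nlinarith [mul_le_mul_of_nonneg_left h8 hK]

lemma integral_box {D τ : ℝ} (hD : 0 < D) (hτ : 0 < τ) (θ : ℝ) :
    ∫ p : ℝ × ℝ, box D τ θ p.1 p.2 = 1 := by
  have ha : 0 < D * τ ^ 2 := by positivity
  simp only [box]
  rw [integral_div, Measure.volume_eq_prod,
    integral_prod_mul (fun σ => Growth.bump1 ((σ - τ) / (D * τ ^ 2)))
      (fun y => Growth.bump1 ((y - θ) / τ)),
    integral_sub_right_eq_self (fun x => Growth.bump1 (x / (D * τ ^ 2))) τ,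
    integral_sub_right_eq_self (fun x => Growth.bump1 (x / τ)) θ,
    Measure.integral_comp_div Growth.bump1 (D * τ ^ 2), Measure.integral_comp_div Growth.bump1 τ,
    Growth.integral_bump1, abs_of_pos ha, abs_of_pos hτ, smul_eq_mul, smul_eq_mul]
  field_simp

/-- Averaging against a probability weight. -/
lemma abs_sub_avg_le {α : Type*} [MeasurableSpace α] {μ : Measure α} {B F : α → ℝ} {c e : ℝ}
    (hB : Integrable B μ) (hBF : Integrable (fun x => B x * F x) μ) (h0 : ∀ x, 0 ≤ B x)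
    (h1 : ∫ x, B x ∂μ = 1) (he : ∀ x, B x ≠ 0 → |F x - c| ≤ e) :
    |c - ∫ x, B x * F x ∂μ| ≤ e := by
  have h : c - ∫ x, B x * F x ∂μ = ∫ x, B x * c - B x * F x ∂μ := by
    rw [integral_sub (hB.mul_const c) hBF, integral_mul_const, h1, one_mul]
  rw [h, ← one_mul e, ← h1, ← integral_mul_const, ← Real.norm_eq_abs]
  refine norm_integral_le_of_norm_le (hB.mul_const e) (Eventually.of_forall fun x => ?_)
  rw [Real.norm_eq_abs, ← mul_sub, abs_mul, abs_of_nonneg (h0 x), abs_sub_comm]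
  rcases eq_or_ne (B x) 0 with h | h
  · simp [h]
  · exact mul_le_mul_of_nonneg_left (he x h) (h0 x)

/-- What the support of the box gives. -/
lemma box_zone {D τ θ Sw σ y : ℝ} (hD : 0 < D) (hτ : 0 < τ) (hτ1 : τ ≤ 1) (hDτ : D * τ ≤ 1 / 2)
    (hθ : |θ| ≤ Sw * Real.sqrt τ) (h : box D τ θ σ y ≠ 0) :
    |σ - τ| ≤ D * τ ^ 2 ∧ |y - θ| ≤ τ ∧ τ / 2 ≤ σ ∧ σ ≤ 2 * τ ∧
      |y| ≤ (Sw + 1) * Real.sqrt τ := by
  obtain ⟨h1, h2⟩ := Growth.box_supp hD hτ h
  have h3 : D * τ ^ 2 ≤ τ / 2 := by nlinarith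
  have h4 := abs_le.1 (h1.trans h3)
  have hττ : τ ≤ Real.sqrt τ := Real.le_sqrt_of_sq_le (by nlinarith)
  refine ⟨h1, h2, by linarith, by linarith, ?_⟩
  have := abs_sub_abs_le_abs_sub y θ
  nlinarith

/-- Heat averages of late data vary by a power of `τ` over a box. -/
lemma avg_box_close {κ : ℝ} (hκ : 0 < κ) : ∃ C : ℝ, 0 ≤ C ∧
    ∀ (g : ℝ × ℝ → ℝ) (A D N Sw τ θ σ y : ℝ), Heat.LateData g 10 (N * τ) (A * (N * τ) ^ 4) →
      0 < τ → τ ≤ 1 → 1 ≤ D → 10 ≤ N → 0 ≤ Sw → (Sw + 1) ^ 2 ≤ N →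
      |θ| ≤ Sw * Real.sqrt τ → |σ - τ| ≤ D * τ ^ 2 → |y - θ| ≤ τ → 0 ≤ σ → σ ≤ 2 * τ →
      |y| ≤ (Sw + 1) * Real.sqrt τ →
        |Heat.heatAvg κ g 0 σ y - Heat.heatAvg κ g 0 τ θ| ≤
          C * |A| * D * N ^ 4 * Real.sqrt τ * τ ^ 4 := by
  obtain ⟨C0, hC0⟩ := Heat.avg κ hκ 10 0
  obtain ⟨C1, hC1⟩ := Heat.avg κ hκ 10 1
  obtain ⟨C2, hC2⟩ := Heat.avg κ hκ 10 2
  refine ⟨|C1| + κ * |C2|, by positivity,
    fun g A D N Sw τ θ σ y hld hτ hτ1 hD hN hSw hSwN hθ h1 h2 hσ0 hσ2 h5 => ?_⟩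
  set T := N * τ with hT
  have hT0 : 0 < T := by positivity
  have hs := Real.sqrt_pos.2 hτ
  have hσT : σ ≤ T / 2 := by rw [hT]; nlinarith
  have hwT : (Sw + 1) * Real.sqrt τ ≤ Real.sqrt T := by
    rw [hT, Real.sqrt_mul (by linarith)]
    exact mul_le_mul_of_nonneg_right (Real.le_sqrt_of_sq_le hSwN) hs.le
  have hTs : Real.sqrt τ ≤ Real.sqrt T := Real.sqrt_le_sqrt (by rw [hT]; nlinarith)
  have hττ : τ ≤ Real.sqrt τ := Real.le_sqrt_of_sq_le (by nlinarith)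
  have hθT : |θ| ≤ Real.sqrt T := by nlinarith
  have hbd : ∀ (C : ℝ) (R : ℝ), 0 ≤ R → C * (A * T ^ 4) / R ≤ |C| * |A| * T ^ 4 / R :=
    fun C R hR => by
      refine div_le_div_of_nonneg_right ?_ hR
      rw [← mul_assoc]
      exact mul_le_mul_of_nonneg_right ((le_abs_self _).trans (abs_mul _ _).le) (by positivity)
  have d1 : |Heat.heatAvg κ g 0 σ y - Heat.heatAvg κ g 0 σ θ| ≤
      |C1| * |A| * T ^ 4 / Real.sqrt T * |y - θ| := by
    refine Convex.norm_image_sub_le_of_norm_hasDerivWithin_le (f := Heat.heatAvg κ g 0 σ)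
      (f' := Heat.heatAvg κ g 1 σ) (s := Icc (-Real.sqrt T) (Real.sqrt T))
      (fun z hz => (hC0 g T _ hld σ z hσ0 hσT (abs_le.2 hz)).1.hasDerivWithinAt)
      (fun z hz => ?_) (convex_Icc _ _) (abs_le.1 hθT) (abs_le.1 (h5.trans hwT))
    have hb' := (hC1 g T _ hld σ z hσ0 hσT (abs_le.2 hz)).2.2
    rw [pow_one] at hb'
    rw [Real.norm_eq_abs]
    exact hb'.trans (hbd C1 _ (Real.sqrt_nonneg _))
  have d2 : |Heat.heatAvg κ g 0 σ θ - Heat.heatAvg κ g 0 τ θ| ≤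
      κ * (|C2| * |A| * T ^ 4 / T) * |σ - τ| := by
    refine Convex.norm_image_sub_le_of_norm_hasDerivWithin_le (f := fun t => Heat.heatAvg κ g 0 t θ)
      (f' := fun t => -κ * Heat.heatAvg κ g 2 t θ) (s := Icc 0 (T / 2))
      (fun t ht => (hC0 g T _ hld t θ ht.1 ht.2 hθT).2.1.hasDerivWithinAt)
      (fun t ht => ?_) (convex_Icc _ _) ⟨hτ.le, by rw [hT]; nlinarith⟩ ⟨hσ0, hσT⟩
    have hb' := (hC2 g T _ hld t θ ht.1 ht.2 hθT).2.2
    rw [Real.sq_sqrt hT0.le] at hb'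
    rw [Real.norm_eq_abs, abs_mul, abs_neg, abs_of_pos hκ]
    exact mul_le_mul_of_nonneg_left (hb'.trans (hbd C2 _ hT0.le)) hκ.le
  have r1 : |y - θ| / Real.sqrt T ≤ D * Real.sqrt τ := by
    rw [div_le_iff₀ (Real.sqrt_pos.2 hT0)]
    calc |y - θ| ≤ 1 * (Real.sqrt τ * Real.sqrt τ) := by
          rw [one_mul, Real.mul_self_sqrt hτ.le]; exact h2
      _ ≤ D * (Real.sqrt τ * Real.sqrt T) :=
          mul_le_mul hD (mul_le_mul_of_nonneg_left hTs hs.le) (by positivity) (by linarith)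
      _ = _ := by ring
  have r2 : |σ - τ| / T ≤ D * Real.sqrt τ := by
    rw [div_le_iff₀ hT0]
    refine h1.trans ?_
    rw [mul_assoc, hT, sq]
    refine mul_le_mul_of_nonneg_left ?_ (by linarith)
    exact mul_le_mul hττ (by nlinarith) hτ.le hs.le
  calc _ ≤ |C1| * |A| * T ^ 4 / Real.sqrt T * |y - θ| +
        κ * (|C2| * |A| * T ^ 4 / T) * |σ - τ| := (abs_sub_le _ _ _).trans (add_le_add d1 d2)
    _ = |C1| * |A| * T ^ 4 * (|y - θ| / Real.sqrt T) +
        κ * |C2| * |A| * T ^ 4 * (|σ - τ| / T) := by ring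
    _ ≤ |C1| * |A| * T ^ 4 * (D * Real.sqrt τ) + κ * |C2| * |A| * T ^ 4 * (D * Real.sqrt τ) :=
        add_le_add (mul_le_mul_of_nonneg_left r1 (by positivity))
          (mul_le_mul_of_nonneg_left r2 (by positivity))
    _ = _ := by rw [hT]; ring

/-- Heat averages are measurable in the base point. -/
lemma measurable_heatAvg (κ : ℝ) {g : ℝ × ℝ → ℝ} (hg : Continuous g) :
    StronglyMeasurable fun p : ℝ × ℝ => Heat.heatAvg κ g 0 p.1 p.2 :=
  StronglyMeasurable.integral_prod_right'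
    (f := fun q : (ℝ × ℝ) × ℝ × ℝ =>
      g q.2 * Heat.kernD 0 (2 * κ * (q.2.1 - q.1.1)) (q.1.2 - q.2.2))
    ((hg.stronglyMeasurable.comp_measurable measurable_snd).mul
      ((Heat.measurable_kernD 0).comp (f := fun q : (ℝ × ℝ) × ℝ × ℝ =>
        (2 * κ * (q.2.1 - q.1.1), q.1.2 - q.2.2)) (by fun_prop)).stronglyMeasurable)

/-- Profiles follow the heat averages. -/
theorem follow_of (hGr : GrowthStmt) (hJ : Growth.JumpEstStmt) (hO : Growth.OscStmt) :
    FollowStmt := by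
  intro S ε N Sw hε hN hSw hSwN
  have hκ : 0 < S.κ := by
    have := S.data.a_pos
    unfold Setup.κ
    positivity
  obtain ⟨K, δb, τb, hK, hδb, hδb4, hτb, hτb1, hτbR, hb⟩ := tred_bound hGr S
  obtain ⟨δd, A, Td, hδd, hTd, hdata⟩ := dataBound_of hGr S
  obtain ⟨C, hC, hclose⟩ := avg_box_close hκ
  set K' := 256 * K
  have hK' : 0 ≤ K' := by positivity
  obtain ⟨D₀, hD₀⟩ := hJ S Sw K' N (ε / (4 * (1 + K' + K'))) hSw hK' hN (by positivity)
  set D := max D₀ 1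
  have hD : 1 ≤ D := le_max_right _ _
  obtain ⟨δj, hδj, hjump⟩ := hD₀ D (le_max_left _ _) hD
  obtain ⟨δo, hδo, hosc⟩ := hO S D (ε / (4 * (2 * K' + 1) * (1 + Sw) ^ 8)) hD (by positivity)
  refine ⟨min (min δj δo) (min δb δd), lt_min (lt_min hδj hδo) (lt_min hδb hδd),
    fun δ hδ hδle => ?_⟩
  have hδj' : δ ≤ δj := hδle.trans ((min_le_left _ _).trans (min_le_left _ _))
  have hδo' : δ ≤ δo := hδle.trans ((min_le_left _ _).trans (min_le_right _ _))
  have hδb' : δ ≤ δb := hδle.trans ((min_le_right _ _).trans (min_le_left _ _))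
  have hδd' : δ ≤ δd := hδle.trans ((min_le_right _ _).trans (min_le_right _ _))
  obtain ⟨Rj, hRj⟩ := hjump δ hδ hδj'
  obtain ⟨Ro, hRo⟩ := hosc δ hδ hδo'
  set R := max (max Rj Ro) τb⁻¹
  have hR1 : 1 ≤ R := le_trans ((one_le_inv₀ hτb).2 hτb1) (le_max_right _ _)
  have hlev : Growth.Level S δ R K' K' 0 :=
    level_of_bound hK hτb (le_max_right _ _)
      fun ν f hf τ θ h1 h2 h3 => hb ν f hf τ θ h1 h2 (h3.trans hδb')
  have hpj : Growth.Params Rj δj δ R K' 0 :=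
    ⟨hδ, hδj', (le_max_left _ _).trans (le_max_left _ _), hK', le_rfl, zero_le_one⟩
  have hpo : Growth.Params Ro δo δ R K' 0 :=
    ⟨hδ, hδo', (le_max_right _ _).trans (le_max_left _ _), hK', le_rfl, zero_le_one⟩
  set E := C * |A| * D * N ^ 4 + 1
  have hE0 : 0 < E := by positivity
  -- the threshold
  refine ⟨min (min (1 / (8 * N * R)) (Td / N)) (min (δ ^ 2 / (16 * (Sw + 1) ^ 2))
    (min (1 / (2 * D)) ((ε / (4 * E)) ^ 2))), lt_min (lt_min (by positivity)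
    (div_pos hTd (by linarith))) (lt_min (by positivity) (lt_min (by positivity) (by positivity))),
    fun ν f hf τ θ hτ hτ0 hθ => ?_⟩
  simp only [le_min_iff] at hτ0
  obtain ⟨⟨t1, t2⟩, t3, t4, t5⟩ := hτ0
  rw [le_div_iff₀ (by positivity)] at t1 t4 t3
  rw [le_div_iff₀ (by linarith : 0 < N)] at t2
  have hNτ : τ * (8 * N) ≤ 1 :=
    (mul_le_mul_of_nonneg_left (le_mul_of_one_le_right (by linarith) hR1) hτ.le).trans t1
  have hRτ : τ * (8 * R) ≤ 1 := by
    refine le_trans (mul_le_mul_of_nonneg_left ?_ hτ.le) t1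
    exact mul_le_mul_of_nonneg_right (by linarith) (by linarith)
  have h10τ : 10 * τ ≤ N * τ := mul_le_mul_of_nonneg_right hN hτ.le
  have hτ1 : τ ≤ 1 := by linarith
  have hDτ : D * τ ≤ 1 / 2 := by linarith
  have hτb' : 8 * N * τ ≤ τb := by
    have h1 : τb⁻¹ ≤ R := le_max_right _ _
    have h2 : τ * (8 * N) * τb⁻¹ ≤ 1 := le_trans
      (mul_le_mul_of_nonneg_left h1 (by positivity)) (by linarith)
    rw [← div_eq_mul_inv, div_le_one hτb] at h2
    linarith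
  have hwδ : (Sw + 1) * Real.sqrt τ ≤ δ / 4 := by
    rw [← Real.sqrt_sq (by positivity : 0 ≤ Sw + 1), ← Real.sqrt_mul (sq_nonneg _),
      ← Real.sqrt_sq (by linarith : 0 ≤ δ / 4)]
    exact Real.sqrt_le_sqrt (by linarith)
  have hθ4 : |θ| ≤ δ / 4 :=
    hθ.trans ((mul_le_mul_of_nonneg_right (by linarith) (Real.sqrt_nonneg τ)).trans hwδ)
  set T := N * τ with hT
  have hT0 : 0 < T := by positivity
  obtain ⟨hld, -⟩ := hdata δ hδ hδd' ν f hf T hT0 (by rw [hT]; linarith)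
  set g := late S f δ T
  have hg : Continuous g := continuous_late hf hT0 hδ hδb' hδb4 (by rw [hT]; linarith) hτbR
  have hj := hRj R K' 0 hpj hlev ν f hf τ θ T hτ hθ (by rw [hT]; linarith) le_rfl
    (by rw [hT]; linarith [mul_pos (mul_pos (by linarith : 0 < N) hτ) (by linarith : 0 < R)])
  simp only [zero_mul, add_zero] at hj
  set B : ℝ × ℝ → ℝ := fun p => box D τ θ p.1 p.2
  set H : ℝ × ℝ → ℝ := fun p => Heat.heatAvg S.κ g 0 p.1 p.2
  set U : ℝ × ℝ → ℝ := fun p => tred S f p.1 p.2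
  have hsrc := Growth.source_box (by linarith : 0 < D) hτ θ
  have hBc : Continuous B := hsrc.smooth.continuous
  have hBint : Integrable B := hBc.integrable_of_hasCompactSupport hsrc.compact
  have hBnn : ∀ p, 0 ≤ B p := fun p => Growth.box_nonneg (by linarith) hτ.le θ _ _
  have hB1 : ∫ p, B p = 1 := integral_box (by linarith) hτ θ
  have hzone : ∀ p, B p ≠ 0 → _ := fun p hp =>
    box_zone (Sw := Sw) (by linarith : 0 < D) hτ hτ1 hDτ hθ hp
  have hosc' : ∀ p, B p ≠ 0 → |U p - tred S f τ θ| ≤ ε / 4 * τ ^ 4 := by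
    intro p hp
    obtain ⟨h1, h2, -, -, -⟩ := hzone p hp
    refine (hRo R K' K' 0 hpo hK' hlev ν f hf τ θ p.1 p.2 hτ (by linarith) hθ4 h1 h2).trans ?_
    have hsc := Growth.scale_le_core (η := 0) le_rfl hτ.le hSw.le hθ
    simp only [zero_mul, add_zero] at hsc
    refine (mul_le_mul_of_nonneg_left hsc (by positivity)).trans ?_
    rw [← mul_assoc]
    refine mul_le_mul_of_nonneg_right ?_ (by positivity)
    rw [div_mul_eq_mul_div, div_mul_eq_mul_div, div_le_iff₀ (by positivity)]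
    have : 0 < ε * (1 + Sw) ^ 8 := by positivity
    linarith
  have hH : ∀ p, B p ≠ 0 → |H p - Heat.heatAvg S.κ g 0 τ θ| ≤ ε / 4 * τ ^ 4 := by
    intro p hp
    obtain ⟨h1, h2, h3, h4, h5⟩ := hzone p hp
    refine (hclose g A D N Sw τ θ p.1 p.2 hld hτ hτ1 hD hN hSw.le hSwN hθ h1 h2 (by linarith) h4
      h5).trans ?_
    refine mul_le_mul_of_nonneg_right ?_ (by positivity)
    have hs : Real.sqrt τ ≤ ε / (4 * E) := (Real.sqrt_le_iff).2 ⟨by positivity, t5⟩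
    rw [le_div_iff₀ (by positivity)] at hs
    have : C * |A| * D * N ^ 4 * Real.sqrt τ ≤ E * Real.sqrt τ :=
      mul_le_mul_of_nonneg_right (by simp [E]) (Real.sqrt_nonneg _)
    linarith
  -- integrability against the box
  have hR1' := Growth.one_le_R₁ S
  have iu : Integrable fun p => B p * U p := by
    refine Heat.integrable_of_zero_off (V := Ioo 0 S.R₁⁻¹ ×ˢ Ioo (-(1 / 2)) (1 / 2))
      (C := Icc (τ / 2) (2 * τ) ×ˢ Icc (-((Sw + 1) * Real.sqrt τ)) ((Sw + 1) * Real.sqrt τ))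
      (isOpen_Ioo.prod isOpen_Ioo) (isCompact_Icc.prod isCompact_Icc) ?_
      (hBc.continuousOn.mul (Heat.continuousOn_red hR1' hf.continuousOn)) fun p hp => ?_
    · rintro p ⟨⟨a1, a2⟩, a3, a4⟩
      refine ⟨⟨by linarith, ?_⟩, by linarith, by linarith⟩
      rw [inv_eq_one_div, lt_div_iff₀ (by linarith)]
      have := mul_le_mul_of_nonneg_left (show p.1 ≤ τb by linarith) (zero_le_one.trans hR1')
      linarith
    · rcases eq_or_ne (B p) 0 with h | h
      · simp [h]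
      · obtain ⟨-, -, b3, b4, b5⟩ := hzone p h
        exact absurd ⟨⟨b3, b4⟩, abs_le.1 b5⟩ hp
  have iH : Integrable fun p => B p * H p := by
    refine (hBint.mul_const (|Heat.heatAvg S.κ g 0 τ θ| + ε / 4 * τ ^ 4)).mono'
      (hBc.aestronglyMeasurable.mul (measurable_heatAvg S.κ hg).aestronglyMeasurable)
      (Eventually.of_forall fun p => ?_)
    rw [Real.norm_eq_abs, abs_mul, abs_of_nonneg (hBnn _)]
    rcases eq_or_ne (B p) 0 with h | h
    · simp [h]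
    refine mul_le_mul_of_nonneg_left ?_ (hBnn _)
    have := hH p h
    linarith [abs_sub_abs_le_abs_sub (H p) (Heat.heatAvg S.κ g 0 τ θ)]
  have q1 := abs_sub_avg_le hBint iu hBnn hB1 hosc'
  have q3 := abs_sub_avg_le hBint iH hBnn hB1 hH
  have q2 : |(∫ p, B p * U p) - ∫ p, B p * H p| ≤ ε / 4 * τ ^ 4 := by
    rw [integral_congr_ae (Eventually.of_forall fun p => mul_comm (B p) (U p))]
    refine hj.trans (le_of_eq ?_)
    field_simp
  have a1 := abs_sub_le (tred S f τ θ) (∫ p, B p * U p) (Heat.heatAvg S.κ g 0 τ θ)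
  have a2 := abs_sub_le (∫ p, B p * U p) (∫ p, B p * H p) (Heat.heatAvg S.κ g 0 τ θ)
  rw [abs_sub_comm] at q3
  have a3 : 0 ≤ ε * τ ^ 4 := by positivity
  linarith

end Vale.Agent.P363.Ext.Asymp
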