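import Vale.Agent.P363.Ext.Asymp.RateTools
import Vale.Agent.P363.Ext.Combination
import Vale.Agent.P363.Ext.Sectors.Iso

/-!
P363, asymptotics of the profiles: the terms of the jump identity between the times `T` and `T'`.
-/

noncomputable section

namespace Vale.Agent.P363.Ext.Asymp

open MeasureTheory Filter Set
open scoped BigOperators Topology

/-- The time cut-off between two times. -/
def phiT (T T' τ : ℝ) : ℝ := Growth.downT T τ - Growth.downT T' τ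

/-- What is used about the time cut-off. -/
structure PhiFacts (T T' M : ℝ) : Prop where
  smooth : ContDiff ℝ 2 (phiT T T')
  compact : HasCompactSupport (phiT T T')
  supp : tsupport (phiT T T') ⊆ Icc T (4 * T)
  abs_le : ∀ τ, |phiT T T' τ| ≤ 1
  d1 : ∀ τ, |deriv (phiT T T') τ| ≤ M / T
  d2 : ∀ τ, |deriv (deriv (phiT T T')) τ| ≤ M / T ^ 2
  deriv_eq : ∀ τ, deriv (phiT T T') τ = deriv (Growth.downT T) τ - deriv (Growth.downT T') τ

lemma phi_facts : ∃ M : ℝ, 0 ≤ M ∧ ∀ T T' : ℝ, 0 < T → T ≤ T' → T' ≤ 2 * T → PhiFacts T T' M := by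
  obtain ⟨M₁, hM₁, b1⟩ := deriv_downT_bound
  obtain ⟨M₂, hM₂, b2⟩ := deriv2_downT_bound
  refine ⟨2 * M₁ + 2 * M₂, by positivity, fun T T' hT h1 h2 => ?_⟩
  have hT' : 0 < T' := hT.trans_le h1
  have hd : ∀ U : ℝ, Differentiable ℝ (Growth.downT U) := fun U =>
    (contDiff_downT U (n := 2)).differentiable (by simp)
  have hd' : ∀ U : ℝ, Differentiable ℝ (deriv (Growth.downT U)) := fun U =>
    (((contDiff_succ_iff_deriv (n := 1)).1 (contDiff_downT U (n := 2))).2.2).differentiable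
      one_ne_zero
  have e : deriv (phiT T T') = fun τ => deriv (Growth.downT T) τ - deriv (Growth.downT T') τ :=
    funext fun τ => deriv_fun_sub (hd T τ) (hd T' τ)
  have hz : ∀ τ ∉ Icc T (4 * T), phiT T T' τ = 0 := fun τ hτ => by
    unfold phiT Growth.downT
    rcases lt_or_ge τ T with h | h
    · rw [Real.smoothTransition.one_of_one_le, Real.smoothTransition.one_of_one_le, sub_self]
      · linarith [(div_le_one hT').2 (h.le.trans h1)]
      · linarith [(div_le_one hT).2 h.le]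
    · have h4 : 4 * T < τ := not_le.1 fun h' => hτ ⟨h, h'⟩
      rw [Real.smoothTransition.zero_of_nonpos, Real.smoothTransition.zero_of_nonpos, sub_self]
      · linarith [(le_div_iff₀ hT').2 (show 2 * T' ≤ τ by linarith)]
      · linarith [(le_div_iff₀ hT).2 (show 2 * T ≤ τ by linarith)]
  have i1 : ∀ τ, |deriv (Growth.downT T') τ| ≤ M₁ / T := fun τ =>
    (b1 T' τ hT').trans (div_le_div_of_nonneg_left hM₁ hT h1)
  have i2 : ∀ τ, |deriv (deriv (Growth.downT T')) τ| ≤ M₂ / T ^ 2 := fun τ =>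
    (b2 T' τ hT').trans (div_le_div_of_nonneg_left hM₂ (by positivity) (by gcongr))
  refine ⟨(contDiff_downT T (n := 2)).sub (contDiff_downT T' (n := 2)),
    HasCompactSupport.intro isCompact_Icc hz,
    closure_minimal (fun τ h => by_contra fun hn => h (hz τ hn)) isClosed_Icc, fun τ => ?_,
    fun τ => ?_, fun τ => ?_, fun τ => congrFun e τ⟩
  · rw [phiT, Growth.downT, Growth.downT, abs_le]
    have := Real.smoothTransition.nonneg (2 - τ / T)
    have := Real.smoothTransition.le_one (2 - τ / T)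
    have := Real.smoothTransition.nonneg (2 - τ / T')
    have := Real.smoothTransition.le_one (2 - τ / T')
    constructor <;> linarith
  · rw [e]
    refine (abs_sub _ _).trans ((add_le_add (b1 T τ hT) (i1 τ)).trans ?_)
    rw [← add_div]
    exact div_le_div_of_nonneg_right (by linarith) hT.le
  · rw [e, deriv_fun_sub (hd' T τ) (hd' T' τ)]
    refine (abs_sub _ _).trans ((add_le_add (b2 T τ hT) (i2 τ)).trans ?_)
    rw [← add_div]
    exact div_le_div_of_nonneg_right (by linarith) (by positivity)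

/-- The terms tested against `u`, with `b := base T m * wgt T θ`: the kernel part and the part with
the derivatives of the cut-offs. -/
structure TermBound (S : Setup) (f : Space → ℝ) (δ T T' : ℝ) (m : ℕ) (C : ℝ) (τ θ : ℝ) : Prop where
  err : |Growth.tred S f τ θ * Heat.cutErr (phiT T T') (Growth.cutθ δ) (kK S.κ m) τ θ| ≤
    C / Real.sqrt T * (base T m * wgt T θ)
  op : |Growth.tred S f τ θ *
      Heat.timeOp S.a S.k (Heat.cut (phiT T T') (Growth.cutθ δ) (kK S.κ m)) τ θ| ≤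
    C * (base T m * wgt T θ)
  main : |Growth.tred S f τ θ * Heat.cut (phiT T T') (Growth.cutθ δ) (kK S.κ m) τ θ| ≤
    C * (base T m * wgt T θ)

lemma timeOp_le {a k M B τ θ T E : ℝ} {Φ χ : ℝ → ℝ} {K : ℝ → ℝ → ℝ} (hT : 0 < T)
    (hTτ : τ ≤ 4 * T) (hτ : 0 < τ) (hθ : |θ| ≤ 1) (hM : 0 ≤ M) (hB : 0 ≤ B)
    (p0 : |Φ τ| ≤ 1) (p1 : |deriv Φ τ| ≤ M / T) (p2 : |deriv (deriv Φ) τ| ≤ M / T ^ 2)
    (c0 : |χ θ| ≤ 1) (c1 : |deriv χ θ| ≤ B) (c2 : |deriv (deriv χ) θ| ≤ B)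
    (k0 : |K τ θ| ≤ E) (k1 : τ * |Heat.dT K τ θ| ≤ E)
    (k2 : τ ^ 2 * |Heat.dT (Heat.dT K) τ θ| ≤ E) (k3 : |θ| * |Heat.dY K τ θ| ≤ E)
    (k4 : θ ^ 2 * |Heat.dY (Heat.dY K) τ θ| ≤ E) :
    |Φ τ * χ θ * Heat.timeOp a k K τ θ
        + deriv Φ τ * χ θ * (2 * τ ^ 2 * Heat.dT K τ θ + (2 + 2 * (k / a)) * τ * K τ θ)
        + deriv (deriv Φ) τ * χ θ * (τ ^ 2 * K τ θ)
        - (θ ^ 2 * Heat.cutErr Φ χ K τ θ + 2 * θ * (Φ τ * deriv χ θ * K τ θ))| ≤
      ((6 + 4 * |k / a|) + M * (16 + 8 * |k / a|) + 16 * M + 5 * B) * E := by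
  have hE : 0 ≤ E := (abs_nonneg _).trans k0
  set c := |k / a| with hc
  have hc0 : 0 ≤ c := abs_nonneg _
  have hc2 : |2 + 2 * (k / a)| ≤ 2 + 2 * c :=
    (abs_add_le _ _).trans (by rw [abs_two, abs_mul, abs_two])
  have hτ2 : |τ ^ 2| = τ ^ 2 := abs_of_nonneg (sq_nonneg _)
  have t0 : |Heat.timeOp a k K τ θ| ≤ (6 + 4 * c) * E := by
    unfold Heat.timeOp
    refine (abs_sub _ _).trans ((add_le_add ((abs_sub _ _).trans (add_le_add ((abs_add_le _ _).trans
      (add_le_add ((abs_add_le _ _).trans (add_le_add (le_refl _) (le_refl _))) (le_refl _)))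
      (le_refl _))) (le_refl _)).trans ?_)
    simp only [abs_mul, hτ2, abs_two, abs_of_nonneg (sq_nonneg θ), abs_of_pos hτ, ← hc]
    have e1 : |2 + 2 * (k / a)| * τ * |Heat.dT K τ θ| ≤ (2 + 2 * c) * E := by
      rw [mul_assoc]; exact mul_le_mul hc2 k1 (by positivity) (by positivity)
    have e2 : 2 * c * |K τ θ| ≤ 2 * c * E := mul_le_mul_of_nonneg_left k0 (by positivity)
    have e3 : 2 * |θ| * |Heat.dY K τ θ| ≤ 2 * E := by
      rw [mul_assoc]; exact mul_le_mul_of_nonneg_left k3 zero_le_two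
    linarith only [e1, e2, e3, k2, k4]
  have t1 : |deriv Φ τ| * (|2 * τ ^ 2 * Heat.dT K τ θ + (2 + 2 * (k / a)) * τ * K τ θ|) ≤
      M * (16 + 8 * c) * E := by
    have e1 : |2 * τ ^ 2 * Heat.dT K τ θ + (2 + 2 * (k / a)) * τ * K τ θ| ≤
        τ * ((4 + 2 * c) * E) := by
      refine (abs_add_le _ _).trans ?_
      rw [abs_mul, abs_mul, abs_mul, abs_mul, hτ2, abs_two, abs_of_pos hτ]
      have e2 := mul_le_mul hc2 k0 (abs_nonneg _) (by positivity)
      have e3 := mul_le_mul_of_nonneg_left (add_le_add (mul_le_mul_of_nonneg_left k1 zero_le_two) e2)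
        hτ.le
      linarith only [e3]
    refine (mul_le_mul p1 e1 (abs_nonneg _) (by positivity)).trans ?_
    rw [div_mul_eq_mul_div, div_le_iff₀ hT]
    have := mul_le_mul_of_nonneg_left (mul_le_mul_of_nonneg_right hTτ
      (show 0 ≤ (4 + 2 * c) * E by positivity)) hM
    linarith only [this]
  have t2 : |deriv (deriv Φ) τ| * |τ ^ 2 * K τ θ| ≤ 16 * M * E := by
    rw [abs_mul, hτ2]
    refine (mul_le_mul p2 (mul_le_mul_of_nonneg_left k0 (sq_nonneg τ)) (by positivity)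
      (by positivity)).trans ?_
    rw [div_mul_eq_mul_div, div_le_iff₀ (by positivity)]
    have := mul_le_mul_of_nonneg_left (mul_le_mul_of_nonneg_right
      (pow_le_pow_left₀ hτ.le hTτ 2) hE) hM
    linarith only [this]
  have t3 : |θ ^ 2 * Heat.cutErr Φ χ K τ θ + 2 * θ * (Φ τ * deriv χ θ * K τ θ)| ≤ 5 * B * E := by
    refine (abs_add_le _ _).trans ?_
    rw [Heat.cutErr, abs_mul, abs_mul, abs_mul, abs_mul, abs_mul, abs_mul, abs_two,
      abs_of_nonneg (sq_nonneg θ)]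
    have hθ2 : θ ^ 2 ≤ 1 := by rw [← sq_abs]; exact pow_le_one₀ (abs_nonneg _) hθ
    have e1 : θ ^ 2 * |deriv (deriv χ) θ * K τ θ + 2 * deriv χ θ * Heat.dY K τ θ| ≤ 3 * B * E := by
      refine (mul_le_mul_of_nonneg_left (abs_add_le _ _) (sq_nonneg θ)).trans ?_
      rw [abs_mul, abs_mul, abs_mul, abs_two, mul_add]
      have f1 : θ ^ 2 * (|deriv (deriv χ) θ| * |K τ θ|) ≤ 1 * (B * E) :=
        mul_le_mul hθ2 (mul_le_mul c2 k0 (abs_nonneg _) hB) (by positivity) zero_le_one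
      have f2 : |θ| * (2 * |deriv χ θ|) * (|θ| * |Heat.dY K τ θ|) ≤ 1 * (2 * B) * E :=
        mul_le_mul (mul_le_mul hθ (mul_le_mul_of_nonneg_left c1 zero_le_two) (by positivity)
          zero_le_one) k3 (by positivity) (by positivity)
      have f3 : θ ^ 2 * (2 * |deriv χ θ| * |Heat.dY K τ θ|) =
          |θ| * (2 * |deriv χ θ|) * (|θ| * |Heat.dY K τ θ|) := by rw [← sq_abs]; ring
      linarith only [f1, f2, f3]
    have e2 : θ ^ 2 * (|Φ τ| * |deriv (deriv χ) θ * K τ θ + 2 * deriv χ θ * Heat.dY K τ θ|) ≤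
        3 * B * E := by
      rw [mul_left_comm]
      exact (mul_le_of_le_one_left (by positivity) p0).trans e1
    have e3 : 2 * |θ| * (|Φ τ| * |deriv χ θ| * |K τ θ|) ≤ 2 * 1 * (1 * B * E) :=
      mul_le_mul (mul_le_mul_of_nonneg_left hθ zero_le_two)
        (mul_le_mul (mul_le_mul p0 c1 (abs_nonneg _) zero_le_one) k0 (abs_nonneg _) (by positivity))
        (by positivity) (by positivity)
    linarith only [e2, e3]
  refine (abs_sub _ _).trans ((add_le_add ((abs_add_le _ _).trans (add_le_add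
    ((abs_add_le _ _).trans (add_le_add (le_refl _) (le_refl _))) (le_refl _))) t3).trans ?_)
  have u0 : |Φ τ * χ θ * Heat.timeOp a k K τ θ| ≤ (6 + 4 * c) * E := by
    rw [abs_mul, abs_mul]
    exact (mul_le_of_le_one_left (abs_nonneg _) (mul_le_one₀ p0 (abs_nonneg _) c0)).trans t0
  have u1 : |deriv Φ τ * χ θ * (2 * τ ^ 2 * Heat.dT K τ θ + (2 + 2 * (k / a)) * τ * K τ θ)| ≤
      M * (16 + 8 * c) * E := by
    rw [abs_mul, abs_mul]
    exact (mul_le_mul_of_nonneg_right (mul_le_of_le_one_right (abs_nonneg _) c0)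
      (abs_nonneg _)).trans t1
  have u2 : |deriv (deriv Φ) τ * χ θ * (τ ^ 2 * K τ θ)| ≤ 16 * M * E := by
    rw [abs_mul, abs_mul _ (χ θ)]
    exact (mul_le_mul_of_nonneg_right (mul_le_of_le_one_right (abs_nonneg _) c0)
      (abs_nonneg _)).trans t2
  linarith only [u0, u1, u2]

lemma size_mul {T K C : ℝ} (hT : 0 < T) (θ : ℝ) (m : ℕ) :
    K * T ^ 4 * (1 + |θ| / Real.sqrt T) ^ 8 *
        (C / Real.sqrt T ^ (m + 1) * ((1 + |θ| / Real.sqrt T) ^ 48)⁻¹) =
      K * C * (base T m * wgt T θ) := by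
  have : 0 < Real.sqrt T := Real.sqrt_pos.2 hT
  rw [wgt, base, show (48 : ℕ) = 8 + 40 from rfl, pow_add]
  set z := (1 + |θ| / Real.sqrt T) with hz
  have : 0 < z := by positivity
  clear_value z
  field_simp
  ring

/-- All terms, in the window and for small `θ`. -/
lemma term_bound (hGr : GrowthStmt) (S : Setup) :
    ∃ δ₀ τ₀ : ℝ, 0 < δ₀ ∧ δ₀ ≤ 1 / 4 ∧ 0 < τ₀ ∧ τ₀ ≤ 1 ∧ S.R₁ * τ₀ < 1 ∧
      ∀ δ : ℝ, 0 < δ → δ ≤ δ₀ → ∀ m : ℕ, ∃ C : ℝ, 0 ≤ C ∧
        ∀ (ν : ℝ) (f : Space → ℝ), Profile S ν f → ∀ T T' : ℝ, 0 < T → T ≤ T' → T' ≤ 2 * T →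
          4 * T ≤ τ₀ → ∀ τ θ : ℝ, T ≤ τ → τ ≤ 4 * T → |θ| ≤ δ →
            TermBound S f δ T T' m C τ θ := by
  obtain ⟨Ku, δ₀, τ₀, hKu, hδ₀, hδ4, hτ₀, hτ1, hτR, hb⟩ := tred_bound hGr S
  obtain ⟨M, hM, hphi⟩ := phi_facts
  refine ⟨δ₀, τ₀, hδ₀, hδ4, hτ₀, hτ1, hτR, fun δ hδ hδle m => ?_⟩
  have hκ : 0 < S.κ := by rw [Setup.κ]; exact div_pos one_pos (mul_pos two_pos S.data.a_pos)
  obtain ⟨-, -, B, hB, hχ⟩ := cutθ_facts hδ
  obtain ⟨Ck, hCk, hK⟩ := kK_bound hκ m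
  set A := (6 + 4 * |S.k / S.a|) + M * (16 + 8 * |S.k / S.a|) + 16 * M + 5 * B with hA
  have hA0 : 0 ≤ A := by positivity
  refine ⟨Ku * 3 ^ 8 * Ck * (1 + A + 3 * B), by positivity,
    fun ν f hf T T' hT h1 h2 h4 τ θ hTτ hτT hθ => ?_⟩
  have hτ : 0 < τ := hT.trans_le hTτ
  have P := hphi T T' hT h1 h2
  have hT1 : T ≤ 1 := by linarith
  have hsT := Real.sqrt_pos.2 hT
  have hs1 : Real.sqrt T ≤ 1 := Real.sqrt_le_one.2 hT1
  obtain ⟨k0, k1, k2, k3, k4, k5⟩ := hK T τ θ hT hTτ hτT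
  set y := |θ| / Real.sqrt T with hy
  have hy0 : 0 ≤ y := by positivity
  have hu : |Growth.tred S f τ θ| ≤ Ku * 3 ^ 8 * T ^ 4 * (1 + y) ^ 8 := by
    refine (hb ν f hf τ θ hτ (hτT.trans h4) (hθ.trans hδle)).trans ?_
    rw [mul_assoc Ku, mul_assoc Ku]
    refine mul_le_mul_of_nonneg_left ?_ hKu
    have h' : Real.sqrt τ + |θ| ≤ 3 * Real.sqrt T * (1 + y) := by
      have e1 : Real.sqrt τ ≤ 2 * Real.sqrt T := by
        rw [← Real.sqrt_sq (show (0 : ℝ) ≤ 2 by norm_num), ← Real.sqrt_mul (by norm_num)]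
        exact Real.sqrt_le_sqrt (by linarith)
      have e2 : |θ| = y * Real.sqrt T := by rw [hy]; field_simp
      have e3 : 0 ≤ y * Real.sqrt T := by positivity
      linarith only [e1, e2, e3, hsT]
    refine (pow_le_pow_left₀ (by positivity) h' 8).trans (le_of_eq ?_)
    rw [mul_pow, mul_pow, show Real.sqrt T ^ 8 = T ^ 4 by
      rw [show 8 = 2 * 4 from rfl, pow_mul, Real.sq_sqrt hT.le]]
  set E := Ck / Real.sqrt T ^ (m + 1) * ((1 + y) ^ 48)⁻¹ with hE
  have hE0 : 0 ≤ E := (abs_nonneg _).trans k0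
  set bw := base T m * wgt T θ with hbw
  have hbw0 : 0 ≤ bw := mul_nonneg (base_nonneg hT.le m) (wgt_pos T θ).le
  have key : ∀ {X a : ℝ}, 0 ≤ a → |X| ≤ a * E →
      |Growth.tred S f τ θ * X| ≤ Ku * 3 ^ 8 * Ck * a * bw := fun {X a} ha hX => by
    rw [abs_mul]
    refine (mul_le_mul hu hX (abs_nonneg _) (by positivity)).trans (le_of_eq ?_)
    rw [show Ku * 3 ^ 8 * T ^ 4 * (1 + y) ^ 8 * (a * E) =
      a * (Ku * 3 ^ 8 * T ^ 4 * (1 + y) ^ 8 * E) by ring, hE, hy, size_mul hT, hbw]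
    ring
  have hC0 : 0 ≤ Ku * 3 ^ 8 * Ck := by positivity
  have p0 := P.abs_le τ
  have c0 := abs_cutθ_le δ θ
  refine ⟨?_, ?_, ?_⟩
  · have h := key (X := Heat.cutErr (phiT T T') (Growth.cutθ δ) (kK S.κ m) τ θ)
      (a := 3 * B / Real.sqrt T) (by positivity) ?_
    · refine h.trans (le_trans (le_of_eq (show _ = Ku * 3 ^ 8 * Ck * (3 * B) / Real.sqrt T * bw by
        ring)) ?_)
      gcongr
      linarith
    · rw [Heat.cutErr, abs_mul]
      refine (mul_le_of_le_one_left (abs_nonneg _) p0).trans ((abs_add_le _ _).trans ?_)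
      rw [abs_mul, abs_mul, abs_mul, abs_two, div_mul_eq_mul_div, le_div_iff₀ hsT]
      have e1 : |deriv (deriv (Growth.cutθ δ)) θ| * |kK S.κ m τ θ| * Real.sqrt T ≤ B * E * 1 :=
        mul_le_mul (mul_le_mul (hχ θ).2 k0 (abs_nonneg _) hB) hs1 hsT.le (by positivity)
      have e2 := mul_le_mul (mul_le_mul_of_nonneg_left (hχ θ).1 zero_le_two) k5 (by positivity)
        (by positivity)
      linarith only [e1, e2]
  · have hU : IsOpen (Ioi (0 : ℝ)) := isOpen_Ioi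
    have hsol := (Heat.kernSol S.κ 0 0 m hκ).1
    have e := Heat.cutRule S.a S.k (phiT T T') (Growth.cutθ δ) (kK S.κ m) (Ioi 0) hU P.smooth
      (contDiff_cutθ δ (n := 2)) hsol τ hτ θ
    rw [e]
    have h := key (X := _) (a := A) hA0 (timeOp_le hT hτT hτ (by linarith) hM hB p0
      (P.d1 τ) (P.d2 τ) c0 (hχ θ).1 (hχ θ).2 k0 k1 k2 k3 k4)
    refine h.trans (mul_le_mul_of_nonneg_right (mul_le_mul_of_nonneg_left ?_ hC0) hbw0)
    linarith
  · have h := key (X := Heat.cut (phiT T T') (Growth.cutθ δ) (kK S.κ m) τ θ) (a := 1) zero_le_one ?_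
    · refine h.trans (mul_le_mul_of_nonneg_right (mul_le_mul_of_nonneg_left ?_ hC0) hbw0)
      linarith
    · rw [one_mul, Heat.cut, abs_mul, abs_mul]
      exact (mul_le_of_le_one_left (abs_nonneg _) (mul_le_one₀ p0 (abs_nonneg _) c0)).trans k0

/-- An integrand below a multiple of the window. -/
lemma slab_le {T : ℝ} {G : ℝ × ℝ → ℝ} {B : ℝ} (hT : 0 < T) (hB : 0 ≤ B)
    (h : ∀ p : ℝ × ℝ, |G p| ≤ B * ((Icc T (4 * T)).indicator (fun _ => (1 : ℝ)) p.1 *
      (1 + (p.2 / Real.sqrt T) ^ 2)⁻¹)) :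
    |∫ p, G p| ≤ B * (3 * Real.pi * (T * Real.sqrt T)) := by
  obtain ⟨hi, hb⟩ := window_bound hT
  rw [← Real.norm_eq_abs]
  refine (norm_integral_le_of_norm_le (hi.const_mul B) (Eventually.of_forall fun p => ?_)).trans ?_
  · rw [Real.norm_eq_abs]; exact h p
  rw [integral_const_mul]
  exact mul_le_mul_of_nonneg_left hb hB

/-- Integrands supported in the box below the weight. -/
lemma box_le {δ T : ℝ} {m : ℕ} {G : ℝ × ℝ → ℝ} {c : ℝ} (hT : 0 < T) (hc : 0 ≤ c)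
    (h0 : ∀ p : ℝ × ℝ, ¬(p.1 ∈ Icc T (4 * T) ∧ |p.2| ≤ δ) → G p = 0)
    (hG : ∀ p : ℝ × ℝ, p.1 ∈ Icc T (4 * T) → |p.2| ≤ δ → |G p| ≤ c * (base T m * wgt T p.2)) :
    |∫ p, G p| ≤ c * (3 * Real.pi) * (base T m * (T * Real.sqrt T)) := by
  refine (slab_le (G := G) (B := c * base T m) hT (mul_nonneg hc (base_nonneg hT.le m))
    fun p => ?_).trans (le_of_eq (by ring))
  by_cases h : p.1 ∈ Icc T (4 * T) ∧ |p.2| ≤ δ
  · refine (hG p h.1 h.2).trans ?_
    rw [indicator_of_mem h.1, one_mul, mul_assoc]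
    exact mul_le_mul_of_nonneg_left
      (mul_le_mul_of_nonneg_left (wgt_le_inv T p.2) (base_nonneg hT.le m)) hc
  · rw [h0 p h, abs_zero]
    exact mul_nonneg (mul_nonneg hc (base_nonneg hT.le m))
      (mul_nonneg (indicator_nonneg (fun _ _ => zero_le_one) _) (by positivity))

end Vale.Agent.P363.Ext.Asymp
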