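import Vale.Agent.P363.Ext.Asymp.Data
import Vale.Agent.P363.Ext.Heat.Kernel
import Vale.Agent.P363.Ext.Ring

/-!
P363, asymptotics of the profiles, tools for `RateStmt`: the Gaussian derivatives at times of
order `T`, cut-offs, and the two integrals used in the estimates.
-/

noncomputable section

namespace Vale.Agent.P363.Ext.Asymp

open MeasureTheory Filter Set
open scoped BigOperators Topology

/-- The decay in `θ` at the time scale `T`. -/
def wgt (T θ : ℝ) : ℝ := ((1 + |θ| / Real.sqrt T) ^ 40)⁻¹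

/-- The size of the terms before integration. -/
def base (T : ℝ) (m : ℕ) : ℝ := T ^ 4 / Real.sqrt T ^ (m + 1)

lemma wgt_pos (T θ : ℝ) : 0 < wgt T θ := by unfold wgt; positivity

lemma wgt_le_one (T θ : ℝ) : wgt T θ ≤ 1 :=
  inv_le_one_of_one_le₀ (one_le_pow₀ (le_add_of_nonneg_right (by positivity)))

lemma base_nonneg {T : ℝ} (hT : 0 ≤ T) (m : ℕ) : 0 ≤ base T m := by unfold base; positivity

/-- A kernel solution with the heat constant `κ`. -/
def kK (κ : ℝ) (m : ℕ) : ℝ → ℝ → ℝ := fun t s => Heat.kernD m (2 * κ * (t - 0)) (s - 0)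

/-- Gaussian derivatives at times of order `T`. -/
lemma kern_bound {κ : ℝ} (hκ : 0 < κ) (j : ℕ) :
    ∃ C : ℝ, 0 ≤ C ∧ ∀ T τ θ : ℝ, 0 < T → T ≤ τ → τ ≤ 4 * T →
      |Heat.kernD j (2 * κ * τ) θ| ≤
        C / Real.sqrt T ^ (j + 1) * ((1 + |θ| / Real.sqrt T) ^ 50)⁻¹ := by
  obtain ⟨C, hC, hb⟩ := Heat.exists_kernD_bound j
  set c := 1 / (32 * κ) with hc
  have hc0 : 0 < c := by positivity
  set P := (Nat.factorial 50 : ℝ) * Real.exp (1 + 1 / (2 * c)) with hP
  set s := Real.sqrt (2 * κ) with hs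
  have hs0 : 0 < s := Real.sqrt_pos.2 (by positivity)
  refine ⟨C * P / s ^ (j + 1), by positivity, fun T τ θ hT h1 h2 => ?_⟩
  have hτ : 0 < τ := hT.trans_le h1
  have hsT := Real.sqrt_pos.2 hT
  set y := |θ| / Real.sqrt T with hy
  have hy0 : 0 ≤ y := by positivity
  refine (hb _ θ (by positivity)).trans ?_
  have e1 : Real.exp (-(θ ^ 2 / (4 * (2 * κ * τ)))) ≤ Real.exp (-(c * y ^ 2)) := by
    refine Real.exp_le_exp.2 (neg_le_neg ?_)
    rw [hy, div_pow, sq_abs, Real.sq_sqrt hT.le, hc, div_mul_div_comm, one_mul]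
    exact div_le_div_of_nonneg_left (sq_nonneg θ) (by positivity) (by nlinarith)
  have e2 : (1 + y) ^ 50 * Real.exp (-(c * y ^ 2)) ≤ P := by
    have h := Heat.pow_mul_exp_le 50 hc0 y
    rw [abs_of_nonneg hy0] at h
    exact h.trans (mul_le_of_le_one_right (by positivity)
      (Real.exp_le_one_iff.2 (neg_nonpos.2 (by positivity))))
  have e3 : s ^ (j + 1) * Real.sqrt T ^ (j + 1) ≤ Real.sqrt (2 * κ * τ) ^ (j + 1) := by
    rw [← mul_pow, hs, ← Real.sqrt_mul (by positivity)]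
    exact pow_le_pow_left₀ (Real.sqrt_nonneg _)
      (Real.sqrt_le_sqrt (mul_le_mul_of_nonneg_left h1 (by positivity))) _
  calc C / Real.sqrt (2 * κ * τ) ^ (j + 1) * Real.exp (-(θ ^ 2 / (4 * (2 * κ * τ))))
      ≤ C / (s ^ (j + 1) * Real.sqrt T ^ (j + 1)) * (P * ((1 + y) ^ 50)⁻¹) := by
        refine mul_le_mul (div_le_div_of_nonneg_left hC (by positivity) e3) (e1.trans ?_)
          (Real.exp_pos _).le (by positivity)
        rw [← div_eq_mul_inv, le_div_iff₀ (by positivity), mul_comm]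
        exact e2
    _ = _ := by field_simp

/-- The kernel solution and what is used about its derivatives. -/
lemma kK_bound {κ : ℝ} (hκ : 0 < κ) (m : ℕ) :
    ∃ C : ℝ, 0 ≤ C ∧ ∀ T τ θ : ℝ, 0 < T → T ≤ τ → τ ≤ 4 * T →
      (let E := C / Real.sqrt T ^ (m + 1) * ((1 + |θ| / Real.sqrt T) ^ 48)⁻¹
       |kK κ m τ θ| ≤ E ∧ τ * |Heat.dT (kK κ m) τ θ| ≤ E ∧
        τ ^ 2 * |Heat.dT (Heat.dT (kK κ m)) τ θ| ≤ E ∧ |θ| * |Heat.dY (kK κ m) τ θ| ≤ E ∧
        θ ^ 2 * |Heat.dY (Heat.dY (kK κ m)) τ θ| ≤ E ∧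
        Real.sqrt T * |Heat.dY (kK κ m) τ θ| ≤ E) := by
  obtain ⟨C0, hC0, b0⟩ := kern_bound hκ m
  obtain ⟨C1, hC1, b1⟩ := kern_bound hκ (m + 1)
  obtain ⟨C2, hC2, b2⟩ := kern_bound hκ (m + 2)
  obtain ⟨C4, hC4, b4⟩ := kern_bound hκ (m + 4)
  refine ⟨C0 + 4 * κ * C2 + 16 * κ ^ 2 * C4 + C1 + C2, by positivity, fun T τ θ hT h1 h2 => ?_⟩
  intro E
  have hτ : 0 < τ := hT.trans_le h1
  have hsT := Real.sqrt_pos.2 hT
  have hsq : Real.sqrt T ^ 2 = T := Real.sq_sqrt hT.le
  set s := Real.sqrt T with hs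
  set y := |θ| / s with hy
  have hy0 : 0 ≤ y := by positivity
  have hθ : |θ| = y * s := by rw [hy]; field_simp
  set q : ℝ := ((1 + y) ^ 48)⁻¹ with hq
  have hp : ∀ i ≤ 2, y ^ i * ((1 + y) ^ 50)⁻¹ ≤ q := fun i hi => by
    rw [hq, ← div_eq_mul_inv, div_le_iff₀ (by positivity), ← div_eq_inv_mul,
      le_div_iff₀ (by positivity)]
    calc y ^ i * (1 + y) ^ 48 ≤ (1 + y) ^ i * (1 + y) ^ 48 :=
          mul_le_mul_of_nonneg_right (pow_le_pow_left₀ hy0 (by linarith) i) (by positivity)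
      _ = (1 + y) ^ (i + 48) := by rw [pow_add]
      _ ≤ (1 + y) ^ 50 := pow_le_pow_right₀ (by linarith) (by omega)
  have h50 : ((1 + y) ^ 50)⁻¹ ≤ q := by simpa using hp 0 (by norm_num)
  have eT : ∀ t, 0 < t → ∀ i z, Heat.dT (kK κ i) t z = κ * kK κ (i + 2) t z := fun t ht i z =>
    (Heat.kernSol κ 0 0 i hκ).2.1 t z ht
  have eY : ∀ z, Heat.dY (kK κ m) τ z = kK κ (m + 1) τ z := fun z =>
    (Heat.kernSol κ 0 0 m hκ).2.2 τ z hτ
  have eYY : Heat.dY (Heat.dY (kK κ m)) τ θ = kK κ (m + 2) τ θ := by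
    rw [Heat.dY, funext eY]
    exact (Heat.kernSol κ 0 0 (m + 1) hκ).2.2 τ θ hτ
  have eTT : Heat.dT (Heat.dT (kK κ m)) τ θ = κ * (κ * kK κ (m + 4) τ θ) := by
    rw [Heat.dT, Filter.EventuallyEq.deriv_eq (f := fun t => κ * kK κ (m + 2) t θ)]
    · rw [deriv_const_mul_field]
      exact congrArg (κ * ·) ((Heat.kernSol κ 0 0 (m + 2) hκ).2.1 τ θ hτ)
    · filter_upwards [Ioi_mem_nhds hτ] with t ht
      exact eT t ht m θ
  have ek : ∀ i, kK κ i τ θ = Heat.kernD i (2 * κ * τ) θ := fun i => by simp [kK]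
  have hE : ∀ c, 0 ≤ c → c ≤ C0 + 4 * κ * C2 + 16 * κ ^ 2 * C4 + C1 + C2 →
      c / s ^ (m + 1) * q ≤ E := fun c hc hcC =>
    mul_le_mul_of_nonneg_right (div_le_div_of_nonneg_right hcC (by positivity)) (by positivity)
  have n1 : 0 ≤ 4 * κ * C2 := by positivity
  have n2 : 0 ≤ 16 * κ ^ 2 * C4 := by positivity
  have b0' := b0 T τ θ hT h1 h2
  have b1' := b1 T τ θ hT h1 h2
  have b2' := b2 T τ θ hT h1 h2
  have b4' := b4 T τ θ hT h1 h2
  simp only [← hs, ← hy, ← ek] at b0' b1' b2' b4'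
  refine ⟨?_, ?_, ?_, ?_, ?_, ?_⟩
  · exact (b0'.trans (mul_le_mul_of_nonneg_left h50 (by positivity))).trans
      (hE C0 hC0 (by linarith))
  · rw [eT τ hτ, abs_mul, abs_of_pos hκ]
    refine le_trans ?_ (hE (4 * κ * C2) n1 (by linarith))
    calc τ * (κ * |kK κ (m + 2) τ θ|) ≤ 4 * T * (κ * (C2 / s ^ (m + 2 + 1) * q)) := by
          gcongr
          exact b2'.trans (mul_le_mul_of_nonneg_left h50 (by positivity))
      _ = _ := by rw [← hsq, show m + 2 + 1 = (m + 1) + 2 from rfl, pow_add]; field_simp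
  · rw [eTT, abs_mul, abs_mul, abs_of_pos hκ]
    refine le_trans ?_ (hE (16 * κ ^ 2 * C4) n2 (by linarith))
    calc τ ^ 2 * (κ * (κ * |kK κ (m + 4) τ θ|)) ≤
          (4 * T) ^ 2 * (κ * (κ * (C4 / s ^ (m + 4 + 1) * q))) := by
          gcongr
          exact b4'.trans (mul_le_mul_of_nonneg_left h50 (by positivity))
      _ = _ := by rw [← hsq, show m + 4 + 1 = (m + 1) + 4 by omega, pow_add]; field_simp; ring
  · rw [eY]
    refine le_trans ?_ (hE C1 hC1 (by linarith))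
    calc |θ| * |kK κ (m + 1) τ θ| ≤ |θ| * (C1 / s ^ (m + 1 + 1) * ((1 + y) ^ 50)⁻¹) :=
          mul_le_mul_of_nonneg_left b1' (abs_nonneg _)
      _ = C1 / s ^ (m + 1) * (y ^ 1 * ((1 + y) ^ 50)⁻¹) := by
          rw [hθ, pow_succ s (m + 1)]; field_simp
      _ ≤ _ := mul_le_mul_of_nonneg_left (hp 1 (by norm_num)) (by positivity)
  · rw [eYY]
    refine le_trans ?_ (hE C2 hC2 (by linarith))
    calc θ ^ 2 * |kK κ (m + 2) τ θ| ≤ θ ^ 2 * (C2 / s ^ (m + 2 + 1) * ((1 + y) ^ 50)⁻¹) :=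
          mul_le_mul_of_nonneg_left b2' (sq_nonneg _)
      _ = C2 / s ^ (m + 1) * (y ^ 2 * ((1 + y) ^ 50)⁻¹) := by
          rw [← sq_abs, hθ, show m + 2 + 1 = (m + 1) + 2 from rfl, pow_add]; field_simp
      _ ≤ _ := mul_le_mul_of_nonneg_left (hp 2 le_rfl) (by positivity)
  · rw [eY]
    refine le_trans ?_ (hE C1 hC1 (by linarith))
    calc s * |kK κ (m + 1) τ θ| ≤ s * (C1 / s ^ (m + 1 + 1) * q) :=
          mul_le_mul_of_nonneg_left (b1'.trans (mul_le_mul_of_nonneg_left h50 (by positivity)))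
            hsT.le
      _ = _ := by rw [pow_succ s (m + 1)]; field_simp

/-- A constant on the window of times with the weight is integrable with mass `T √T`. -/
lemma window_bound {T : ℝ} (hT : 0 < T) :
    (Integrable fun p : ℝ × ℝ =>
        (Icc T (4 * T)).indicator (fun _ => (1 : ℝ)) p.1 * (1 + (p.2 / Real.sqrt T) ^ 2)⁻¹) ∧
      ∫ p : ℝ × ℝ, (Icc T (4 * T)).indicator (fun _ => (1 : ℝ)) p.1 *
        (1 + (p.2 / Real.sqrt T) ^ 2)⁻¹ ≤ 3 * Real.pi * (T * Real.sqrt T) := by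
  have hs := Real.sqrt_pos.2 hT
  have h1 : Integrable fun θ : ℝ => (1 + (θ / Real.sqrt T) ^ 2)⁻¹ :=
    integrable_inv_one_add_sq.comp_div hs.ne'
  have h0 : Integrable fun τ : ℝ => (Icc T (4 * T)).indicator (fun _ => (1 : ℝ)) τ :=
    (integrable_indicator_iff measurableSet_Icc).2
      (integrableOn_const measure_Icc_lt_top.ne)
  refine ⟨h0.mul_prod h1, le_of_eq ?_⟩
  rw [Measure.volume_eq_prod, integral_prod_mul ((Icc T (4 * T)).indicator fun _ => (1 : ℝ))
    (fun θ : ℝ => (1 + (θ / Real.sqrt T) ^ 2)⁻¹), integral_indicator measurableSet_Icc,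
    setIntegral_const, Measure.integral_comp_div (fun θ : ℝ => (1 + θ ^ 2)⁻¹),
    integral_univ_inv_one_add_sq, abs_of_pos hs]
  rw [measureReal_def, Real.volume_Icc, ENNReal.toReal_ofReal (by linarith)]
  simp only [smul_eq_mul, mul_one]
  ring

lemma wgt_le_inv (T θ : ℝ) : wgt T θ ≤ (1 + (θ / Real.sqrt T) ^ 2)⁻¹ := by
  refine inv_anti₀ (by positivity) ?_
  have h : (θ / Real.sqrt T) ^ 2 = (|θ| / Real.sqrt T) ^ 2 := by
    rw [div_pow, div_pow, sq_abs]
  rw [h]
  set y := |θ| / Real.sqrt T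
  have hy : 0 ≤ y := by positivity
  refine le_trans ?_ (pow_le_pow_right₀ (by linarith) (show 2 ≤ 40 by norm_num))
  nlinarith

/-- Integrals of invariant functions in the time `1 / r`. -/
lemma meridian_bound {g : Space → ℝ} (hm : Measurable g) (hr : ∀ φ x, g (rot φ x) = g x)
    (hi : Integrable g) :
    Integrable (fun p : ℝ × ℝ =>
        strip.indicator (fun q => q.1 ^ 2 * g (pt q.1 q.2)) (p.1⁻¹, p.2) / p.1 ^ 2) ∧
      ∫ p : ℝ × ℝ, strip.indicator (fun q => q.1 ^ 2 * g (pt q.1 q.2)) (p.1⁻¹, p.2) / p.1 ^ 2 =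
        (∫ x, g x) / (2 * Real.pi) := by
  have hq : Measurable fun q : ℝ × ℝ => g (pt q.1 q.2) := hm.comp measurable_pt
  have e : (fun x : Space => (fun q : ℝ × ℝ => g (pt q.1 q.2)) (polMap x)) = g :=
    funext fun x => comp_polMap hr x
  obtain ⟨h1, h2⟩ := integral_polMap hq
  rw [e] at h1 h2
  set F : ℝ × ℝ → ℝ := strip.indicator (fun q => q.1 ^ 2 * g (pt q.1 q.2)) with hF
  have hFi : Integrable F := (integrable_indicator_iff measurableSet_strip).2 (h1.1 hi)
  have hF0 : ∀ p : ℝ × ℝ, p.1 ≤ 0 → F p = 0 := fun p hp =>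
    indicator_of_notMem (fun h : p ∈ strip => not_lt.2 hp h.1) _
  refine ⟨?_, ?_⟩
  · set S : Set (ℝ × ℝ) := Ioi 0 ×ˢ univ with hSd
    have himg : (fun p : ℝ × ℝ => (p.1⁻¹, p.2)) '' S = S := by
      refine Subset.antisymm ?_ fun p hp =>
        ⟨(p.1⁻¹, p.2), ⟨inv_pos.2 (show 0 < p.1 from hp.1), trivial⟩, by simp⟩
      rintro _ ⟨p, hp, rfl⟩
      exact ⟨inv_pos.2 (show 0 < p.1 from hp.1), trivial⟩
    have hd : ∀ p ∈ S, HasFDerivWithinAt (fun p : ℝ × ℝ => (p.1⁻¹, p.2))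
        ((ContinuousLinearMap.toSpanSingleton ℝ (-(p.1 ^ 2)⁻¹)).prodMap
          (ContinuousLinearMap.id ℝ ℝ)) S p := fun p hp =>
      (((hasDerivAt_inv (ne_of_gt hp.1)).hasFDerivAt).prodMap p
        (hasFDerivAt_id p.2)).hasFDerivWithinAt
    have h := (integrableOn_image_iff_integrableOn_abs_det_fderiv_smul volume
      (measurableSet_Ioi.prod MeasurableSet.univ) hd
      (fun p _ q _ e => Prod.ext (inv_injective (congrArg Prod.fst e)) (congrArg Prod.snd e :))
      F).1 (by rw [himg]; exact hFi.integrableOn)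
    refine (integrableOn_iff_integrable_of_support_subset (s := S) fun p hp => ?_).1 ?_
    · refine ⟨show 0 < p.1 from ?_, trivial⟩
      refine not_le.1 fun h0 => Function.mem_support.1 hp ?_
      rw [hF0 _ (show (p.1⁻¹, p.2).1 ≤ 0 from inv_nonpos.2 h0), zero_div]
    · refine h.congr_fun (fun p _ => ?_) (measurableSet_Ioi.prod MeasurableSet.univ)
      have hdet : ((ContinuousLinearMap.toSpanSingleton ℝ (-(p.1 ^ 2)⁻¹)).prodMap
          (ContinuousLinearMap.id ℝ ℝ)).det = -(p.1 ^ 2)⁻¹ := by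
        rw [ContinuousLinearMap.det, ContinuousLinearMap.coe_prodMap, LinearMap.det_prodMap]
        rw [show LinearMap.det ((ContinuousLinearMap.id ℝ ℝ).toLinearMap) = 1 from LinearMap.det_id,
          mul_one]
        exact ContinuousLinearMap.det_toSpanSingleton _
      simp only [hdet, abs_neg, abs_inv, abs_pow, sq_abs, smul_eq_mul]
      ring
  · rw [← Heat.integral_inv_fst F hF0, hF, integral_indicator measurableSet_strip, h2]
    field_simp

/-- The second derivative of the time cut-off. -/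
lemma deriv2_downT_bound :
    ∃ M : ℝ, 0 ≤ M ∧ ∀ T τ : ℝ, 0 < T → |deriv (deriv (Growth.downT T)) τ| ≤ M / T ^ 2 := by
  have hd : ContDiff ℝ 1 (deriv Real.smoothTransition) :=
    ((contDiff_succ_iff_deriv (n := 1)).1 Real.smoothTransition.contDiff).2.2
  obtain ⟨M, hM⟩ := (hd.continuous_deriv le_rfl).bounded_above_of_compact_support
    ((HasCompactSupport.intro isCompact_Icc fun t ht => deriv_step_off ht).deriv)
  refine ⟨M, (norm_nonneg _).trans (hM 0), fun T τ hT => ?_⟩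
  have e : deriv (Growth.downT T) = fun t => -(deriv Real.smoothTransition (2 - t / T) / T) :=
    funext (deriv_downT T)
  have h := (((hd.differentiable one_ne_zero) (2 - τ / T)).hasDerivAt.comp τ
    (((hasDerivAt_id' τ).div_const T).const_sub 2)).div_const T |>.neg
  have h' : HasDerivAt (fun t => -(deriv Real.smoothTransition (2 - t / T) / T))
      (-(deriv (deriv Real.smoothTransition) (2 - τ / T) * -(1 / T) / T)) τ := h
  rw [e, h'.deriv]
  rw [show -(deriv (deriv Real.smoothTransition) (2 - τ / T) * -(1 / T) / T) =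
    deriv (deriv Real.smoothTransition) (2 - τ / T) / T ^ 2 by ring, abs_div,
    abs_of_pos (pow_pos hT 2)]
  exact div_le_div_of_nonneg_right (hM _) (by positivity)

/-- The space cut-off: support and bounds of the derivatives. -/
lemma cutθ_facts {δ : ℝ} (hδ : 0 < δ) :
    HasCompactSupport (Growth.cutθ δ) ∧ tsupport (Growth.cutθ δ) ⊆ Icc (-δ) δ ∧
      ∃ B : ℝ, 0 ≤ B ∧ ∀ θ, |deriv (Growth.cutθ δ) θ| ≤ B ∧
        |deriv (deriv (Growth.cutθ δ)) θ| ≤ B := by
  have h0 : ∀ θ ∉ Icc (-δ) δ, Growth.cutθ δ θ = 0 := fun θ hθ =>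
    cutθ_zero hδ (le_of_not_gt fun h => hθ ⟨(abs_lt.1 h).1.le, (abs_lt.1 h).2.le⟩)
  have hc : HasCompactSupport (Growth.cutθ δ) := HasCompactSupport.intro isCompact_Icc h0
  have hd : ContDiff ℝ 1 (deriv (Growth.cutθ δ)) :=
    ((contDiff_succ_iff_deriv (n := 1)).1 (contDiff_cutθ δ (n := 2))).2.2
  obtain ⟨B₁, hB₁⟩ := hd.continuous.bounded_above_of_compact_support hc.deriv
  obtain ⟨B₂, hB₂⟩ := (hd.continuous_deriv le_rfl).bounded_above_of_compact_support hc.deriv.deriv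
  refine ⟨hc, closure_minimal (fun θ h => by_contra fun hn => h (h0 θ hn)) isClosed_Icc,
    max B₁ B₂, (norm_nonneg _).trans ((hB₁ 0).trans (le_max_left _ _)), fun θ =>
      ⟨(hB₁ θ).trans (le_max_left _ _), (hB₂ θ).trans (le_max_right _ _)⟩⟩

/-- The mass of the potential on the annulus of radius `R`. -/
lemma annulus_mass (S : Setup) : ∃ C : ℝ, 0 ≤ C ∧ ∀ R : ℝ, 8 ≤ R →
    IntegrableOn S.W {x : Space | R / 8 ≤ ‖x‖ ∧ ‖x‖ ≤ 8 * R} ∧
    ∫ x in {x : Space | R / 8 ≤ ‖x‖ ∧ ‖x‖ ≤ 8 * R}, |S.W x| ≤ C * R ^ 3 := by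
  obtain ⟨w, M, hw, hM, h⟩ := setup_split S
  set V := volume.real (Metric.closedBall (0 : Space) 1) with hV
  refine ⟨ringNorm w * (1 + 512 * V) + M * (512 * V), by
    have := ringNorm_nonneg w
    positivity, fun R hR => ?_⟩
  set A := {x : Space | R / 8 ≤ ‖x‖ ∧ ‖x‖ ≤ 8 * R}
  have hA : MeasurableSet A := (measurableSet_le measurable_const measurable_norm).inter
    (measurableSet_le measurable_norm measurable_const)
  have hAb : A ⊆ Metric.closedBall 0 (8 * R) := fun x hx =>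
    mem_closedBall_zero_iff.2 hx.2
  have hfin : volume A < ⊤ := (measure_mono hAb).trans_lt measure_closedBall_lt_top
  have hvol : volume.real A ≤ 512 * V * R ^ 3 := by
    refine (measureReal_mono hAb measure_closedBall_lt_top.ne).trans (le_of_eq ?_)
    rw [measureReal_def, Measure.addHaar_closedBall' volume (0 : Space) (by positivity),
      finrank_euclideanSpace_fin, ENNReal.toReal_mul, ENNReal.toReal_ofReal (by positivity), hV,
      measureReal_def]
    ring
  obtain ⟨hwi, hwb⟩ := ring_set hw hfin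
  have hle : ∀ x ∈ A, |S.W x| ≤ w x + M := fun x hx => (h x (by linarith [hx.1])).2
  have hWm : Measurable S.W := by
    unfold Setup.W farPot
    exact (S.meas_v.sub measurable_const).sub
      (measurable_const.sub (measurable_const.div measurable_norm))
  have hi : IntegrableOn (fun x => w x + M) A := hwi.add (integrableOn_const hfin.ne)
  have hWi : IntegrableOn S.W A := hi.mono' hWm.aestronglyMeasurable
    ((ae_restrict_iff' hA).2 (Eventually.of_forall fun x hx => hle x hx))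
  refine ⟨hWi, (setIntegral_mono_on hWi.abs hi hA hle).trans ?_⟩
  rw [integral_add hwi (integrableOn_const hfin.ne), setIntegral_const, smul_eq_mul, add_mul]
  refine add_le_add (hwb.trans ?_) ?_
  · rw [mul_assoc]
    refine mul_le_mul_of_nonneg_left ?_ (ringNorm_nonneg w)
    have hR3 : (1 : ℝ) ≤ R ^ 3 := one_le_pow₀ (by linarith)
    have hV0 : 0 ≤ V := measureReal_nonneg
    refine (Real.rpow_le_rpow measureReal_nonneg (hvol.trans
      (mul_le_mul_of_nonneg_right (le_add_of_nonneg_left zero_le_one) (by positivity)))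
        (by norm_num)).trans ?_
    refine Real.rpow_le_self_of_one_le ?_ (by norm_num)
    nlinarith
  · rw [mul_comm _ M, mul_assoc M]
    exact mul_le_mul_of_nonneg_left hvol hM

end Vale.Agent.P363.Ext.Asymp
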