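import Vale.Agent.P363.Ext.Growth.Spec

/-!
P363, Kohn-Sham side: the steps of the asymptotics of the profiles.

With `(τ, θ) = (1 / r, z / r)` the coefficient of order `m` seen from the time `T` is the `m`-th
derivative at the origin of the backward heat average of the data at the times `[T, 2 T]`.
`RateStmt`: changing `T` within a factor two changes it by a higher power, by the jump identity with
the exact Gaussian derivative (every curvature term gains `T`, the potential gains a power by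
`WMassStmt`). So the coefficient of degree eight has a limit and the lower ones are negligible
against it. `FollowStmt` (profiles follow the heat average of their late data) then gives
`r ^ 4 u → γ profile8` uniformly in the profile.
-/

noncomputable section

namespace Vale.Agent.P363.Ext.Asymp

open MeasureTheory Filter Set
open scoped BigOperators Topology

/-- The part of the annulus at radius `R` near the plane. -/
def zone (R : ℝ) : Set Space :=
  {x | R / 8 ≤ ‖x‖ ∧ ‖x‖ ≤ 8 * R ∧ |height x| ≤ R ^ (5 / 8 : ℝ)}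

/-- The potential has little mass near the plane: a power below `R ^ (3 / 2)`, on a zone of volume
about `R ^ (21 / 8)`. -/
def WMassStmt : Prop :=
  ∀ S : Setup, ∃ α C R₀ : ℝ, 0 < α ∧ ∀ R : ℝ, R₀ ≤ R →
    IntegrableOn S.W (zone R) ∧ ∫ x in zone R, |S.W x| ≤ C * R ^ (3 / 2 - α)

/-- The coefficient of order `m` seen from the time `T`. -/
def coeff (S : Setup) (f : Space → ℝ) (δ T : ℝ) (m : ℕ) : ℝ :=
  Heat.heatAvg S.κ (Growth.late S f δ T) m 0 0

/-- Late data of profiles have the size of degree eight and are even. -/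
def DataBoundStmt : Prop :=
  ∀ S : Setup, ∃ δ₀ A T₀ : ℝ, 0 < δ₀ ∧ 0 < T₀ ∧ ∀ δ : ℝ, 0 < δ → δ ≤ δ₀ →
    ∀ (ν : ℝ) (f : Space → ℝ), Profile S ν f → ∀ T : ℝ, 0 < T → T ≤ T₀ →
      Heat.LateData (Growth.late S f δ T) 10 T (A * T ^ 4) ∧
        ∀ τ θ, Growth.late S f δ T (τ, -θ) = Growth.late S f δ T (τ, θ)

/-- Changing the time within a factor two changes the coefficients by a higher power. -/
def RateStmt : Prop :=
  ∀ S : Setup, ∃ δ₀ : ℝ, 0 < δ₀ ∧ ∀ δ : ℝ, 0 < δ → δ ≤ δ₀ → ∃ α C T₀ : ℝ, 0 < α ∧ 0 < T₀ ∧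
    ∀ (ν : ℝ) (f : Space → ℝ), Profile S ν f → ∀ T T' : ℝ, 0 < T → T ≤ T' → T' ≤ 2 * T →
      T' ≤ T₀ → ∀ m ≤ 9,
        |coeff S f δ T m - coeff S f δ T' m| ≤ C * T ^ α * (T ^ 4 / Real.sqrt T ^ m)

/-- Profiles follow the heat average of their late data in the parabolic core. -/
def FollowStmt : Prop :=
  ∀ (S : Setup) (ε N Sw : ℝ), 0 < ε → 10 ≤ N → 0 < Sw → (Sw + 1) ^ 2 ≤ N →
    ∃ δ₁ : ℝ, 0 < δ₁ ∧ ∀ δ : ℝ, 0 < δ → δ ≤ δ₁ → ∃ τ₀ : ℝ, 0 < τ₀ ∧
      ∀ (ν : ℝ) (f : Space → ℝ), Profile S ν f → ∀ τ θ : ℝ, 0 < τ → τ ≤ τ₀ →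
        |θ| ≤ Sw * Real.sqrt τ →
          |Growth.tred S f τ θ - Heat.heatAvg S.κ (Growth.late S f δ (N * τ)) 0 τ θ| ≤ ε * τ ^ 4

end Vale.Agent.P363.Ext.Asymp
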